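import Vale.Agent.P092.H473.Res2

/-!
P092 (helper473), team C: the abstract group inputs of theorem RES from an open compact chain.
-/

set_option linter.all false

open Topology Filter

namespace Vale.Agent.P092.H473.Res

open Vale.Agent.P092.H175.T1

variable {G : Type} [Group G] {p : ℕ} {K : ℕ → Subgroup G}

/-! ### the indices are eventually constant -/

theorem relIndex_succ_le (hc : Chain p K) (m : ℕ) :
    (K (m + 2)).relIndex (K (m + 1)) ≤ (K (m + 1)).relIndex (K m) := by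
  classical
  have hfin : Finite ((K m) ⧸ (K (m + 1)).subgroupOf (K m)) := by
    haveI : ((K (m + 1)).subgroupOf (K m)).FiniteIndex := ⟨hc.fin m⟩
    exact Subgroup.finite_quotient_of_finiteIndex
  have hwd : ∀ x y : K m, (QuotientGroup.leftRel ((K (m + 1)).subgroupOf (K m))) x y →
      (QuotientGroup.leftRel ((K (m + 2)).subgroupOf (K (m + 1))))
        (⟨(x : G) ^ p, hc.pow m x x.2⟩ : K (m + 1)) ⟨(y : G) ^ p, hc.pow m y y.2⟩ := by
    intro x y hxy
    rw [QuotientGroup.leftRel_apply, Subgroup.mem_subgroupOf] at hxy ⊢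
    have hx0 : (x : G) ∈ K 0 := hc.mono (Nat.zero_le m) x.2
    have hr : (x : G)⁻¹ * (y : G) ∈ K (m + 1) := hxy
    obtain ⟨n, hn, h1⟩ := mul_pow_mem hc (by omega : m + 2 ≤ (m + 1) + 2) hx0 hr p
    rw [mul_inv_cancel_left] at h1
    change ((x : G) ^ p)⁻¹ * (y : G) ^ p ∈ K (m + 2)
    rw [h1]
    have h2 : ((x : G) ^ p)⁻¹ * ((x : G) ^ p * ((x : G)⁻¹ * (y : G)) ^ p * n) =
        ((x : G)⁻¹ * (y : G)) ^ p * n := by group
    rw [h2]
    exact mul_mem (hc.pow _ _ hr) hn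
  let F : (K m) ⧸ (K (m + 1)).subgroupOf (K m) →
      (K (m + 1)) ⧸ (K (m + 2)).subgroupOf (K (m + 1)) :=
    Quotient.map' (fun x : K m => (⟨(x : G) ^ p, hc.pow m x x.2⟩ : K (m + 1))) hwd
  have hF : Function.Surjective F := by
    intro z
    obtain ⟨l, rfl⟩ := QuotientGroup.mk_surjective z
    obtain ⟨k, hk, r, hr, h1⟩ := hc.root m l l.2
    refine ⟨QuotientGroup.mk (⟨k, hk⟩ : K m), ?_⟩
    change (QuotientGroup.mk (⟨k ^ p, hc.pow m k hk⟩ : K (m + 1)) : (K (m + 1)) ⧸ _) = _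
    rw [QuotientGroup.eq, Subgroup.mem_subgroupOf]
    change (k ^ p)⁻¹ * (l : G) ∈ K (m + 2)
    rw [h1, inv_mul_cancel_left]
    exact hr
  haveI := hfin
  exact Nat.card_le_card_of_surjective F hF

/-- after a shift all the indices are equal -/
theorem exists_const (hc : Chain p K) :
    ∃ a q : ℕ, ∀ m, (K (a + (m + 1))).relIndex (K (a + m)) = q := by
  classical
  let d : ℕ → ℕ := fun m => (K (m + 1)).relIndex (K m)
  have hd : Antitone d := antitone_nat_of_succ_le fun m => relIndex_succ_le hc m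
  obtain ⟨a, ha⟩ : ∃ a, ∀ m, d a ≤ d m := by
    have h1 : (Set.range d).Nonempty := ⟨d 0, 0, rfl⟩
    obtain ⟨a, ha⟩ := Nat.sInf_mem h1
    exact ⟨a, fun m => ha.trans_le (Nat.sInf_le ⟨m, rfl⟩)⟩
  exact ⟨a, d a, fun m => le_antisymm (hd (Nat.le_add_right a m)) (ha (a + m))⟩

/-! ### topological consequences -/

section top

variable [TopologicalSpace G] [IsTopologicalGroup G]

/-- completeness -/
theorem cpl_of (hle : ∀ n, K (n + 1) ≤ K n) (hop : ∀ n, IsOpen (K n : Set G))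
    (hcp : ∀ n, IsCompact (K n : Set G)) (a : ℕ) (c : ℕ → G) (hc : ∀ N, c N ∈ K a)
    (hcc : ∀ N, a ≤ N → (c N)⁻¹ * c (N + 1) ∈ K N) :
    ∃ u ∈ K a, ∀ N, a ≤ N → (c N)⁻¹ * u ∈ K N := by
  have hcl : ∀ n, IsClosed (K n : Set G) := fun n => Subgroup.isClosed_of_isOpen _ (hop n)
  let E : ℕ → Set G := fun i => (fun y => (c (a + i))⁻¹ * y) ⁻¹' (K (a + i) : Set G)
  have hE1 : ∀ i, E (i + 1) ⊆ E i := by
    intro i y hy
    have h1 := hcc (a + i) (Nat.le_add_right a i)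
    have h2 : (c (a + (i + 1)))⁻¹ * y ∈ K (a + i) := hle _ hy
    have h3 := mul_mem h1 h2
    change (c (a + i))⁻¹ * y ∈ K (a + i)
    have h4 : (c (a + i))⁻¹ * y = (c (a + i))⁻¹ * c (a + i + 1) * ((c (a + (i + 1)))⁻¹ * y) := by
      rw [show a + (i + 1) = a + i + 1 from rfl]
      group
    rw [h4]
    exact h3
  have hE0 : ∀ i, (E i).Nonempty := fun i => ⟨c (a + i), by
    change (c (a + i))⁻¹ * c (a + i) ∈ K (a + i)
    rw [inv_mul_cancel]
    exact one_mem _⟩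
  have hE2 : ∀ i, IsClosed (E i) := fun i => (hcl _).preimage (continuous_const.mul continuous_id)
  have hE3 : IsCompact (E 0) := by
    have h1 : E 0 = (fun y => c (a + 0) * y) '' (K (a + 0) : Set G) := by
      ext y
      constructor
      · intro hy
        exact ⟨(c (a + 0))⁻¹ * y, hy, by simp⟩
      · rintro ⟨z, hz, rfl⟩
        change (c (a + 0))⁻¹ * (c (a + 0) * z) ∈ K (a + 0)
        rw [inv_mul_cancel_left]
        exact hz
    rw [h1]
    exact (hcp _).image (continuous_const.mul continuous_id)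
  obtain ⟨y, hy⟩ := IsCompact.nonempty_iInter_of_sequence_nonempty_isCompact_isClosed E hE1 hE0
    hE3 hE2
  rw [Set.mem_iInter] at hy
  refine ⟨y, ?_, fun N hN => ?_⟩
  · have h1 : (c a)⁻¹ * y ∈ K a := hy 0
    have h2 := mul_mem (hc a) h1
    rwa [mul_inv_cancel_left] at h2
  · have h1 := hy (N - a)
    have h2 : a + (N - a) = N := Nat.add_sub_cancel' hN
    change (c (a + (N - a)))⁻¹ * y ∈ K (a + (N - a)) at h1
    rwa [h2] at h1

theorem inter_of [T2Space G] (hb : ∀ V ∈ 𝓝 (1 : G), ∃ m, (K m : Set G) ⊆ V) (g : G)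
    (hg : ∀ m, g ∈ K m) : g = 1 := by
  by_contra h1
  obtain ⟨m, hm⟩ := hb _ (isOpen_compl_singleton.mem_nhds (show (1 : G) ∈ ({g} : Set G)ᶜ from
    fun h2 => h1 h2.symm))
  exact hm (hg m) rfl

theorem conj_of (hop : ∀ n, IsOpen (K n : Set G))
    (hb : ∀ V ∈ 𝓝 (1 : G), ∃ m, (K m : Set G) ⊆ V) (g : G) (N : ℕ) :
    ∃ r, ∀ k ∈ K r, g⁻¹ * k * g ∈ K N := by
  have hcont : Continuous fun k : G => g⁻¹ * k * g :=
    (continuous_const.mul continuous_id).mul continuous_const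
  have h1 : (fun k : G => g⁻¹ * k * g) ⁻¹' (K N : Set G) ∈ 𝓝 (1 : G) := by
    refine ((hop N).preimage hcont).mem_nhds ?_
    change g⁻¹ * 1 * g ∈ K N
    rw [mul_one, inv_mul_cancel]
    exact one_mem _
  obtain ⟨r, hr⟩ := hb _ h1
  exact ⟨r, fun k hk => hr hk⟩

end top

/-- All the group inputs of theorem RES (with `U = W = K`), in one structure. -/
structure GrpH {G : Type} [Group G] [TopologicalSpace G] (p q : ℕ) (K : ℕ → Subgroup G) :
    Prop where
  chain : Chain p K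
  idx : ∀ m, (K (m + 1)).relIndex (K m) = q
  opn : ∀ n, IsOpen (K n : Set G)
  cpt : ∀ n, IsCompact (K n : Set G)
  bas : ∀ V ∈ 𝓝 (1 : G), ∃ m, (K m : Set G) ⊆ V
  cpl : ∀ a, ∀ c : ℕ → G, (∀ N, c N ∈ K a) → (∀ N, a ≤ N → (c N)⁻¹ * c (N + 1) ∈ K N) →
    ∃ u ∈ K a, ∀ N, a ≤ N → (c N)⁻¹ * u ∈ K N
  inter : ∀ g, (∀ m, g ∈ K m) → g = 1
  conj : ∀ g N, ∃ r, ∀ k ∈ K r, g⁻¹ * k * g ∈ K N
  cent : ∀ r g, (∀ k ∈ K r, k * g = g * k) → g = 1
  /-- (GRP) a nontrivial subgroup normalised by an open subgroup is not commutative -/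
  noab : ∀ (b : ℕ) (T : Subgroup G), (∃ w ∈ T, w ≠ 1) → (∀ v ∈ K b, ∀ t ∈ T, v * t * v⁻¹ ∈ T) →
    ∃ s ∈ T, ∃ t ∈ T, s * t ≠ t * s

/-- assembling `GrpH` -/
theorem exists_grpH [TopologicalSpace G] [IsTopologicalGroup G] [T2Space G] (hc : Chain p K)
    (hop : ∀ n, IsOpen (K n : Set G)) (hcp : ∀ n, IsCompact (K n : Set G))
    (hb : ∀ V ∈ 𝓝 (1 : G), ∃ m, (K m : Set G) ⊆ V)
    (hcent : ∀ V ∈ 𝓝 (1 : G), ∀ g, (∀ k ∈ V, k * g = g * k) → g = 1)
    (hnoab : ∀ V ∈ 𝓝 (1 : G), ∀ T : Subgroup G, (∃ w ∈ T, w ≠ 1) →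
      (∀ v ∈ V, ∀ t ∈ T, v * t * v⁻¹ ∈ T) → ∃ s ∈ T, ∃ t ∈ T, s * t ≠ t * s) :
    ∃ a q, GrpH p q fun m => K (a + m) := by
  obtain ⟨a, q, hq⟩ := exists_const hc
  have hb' : ∀ V ∈ 𝓝 (1 : G), ∃ m, (K (a + m) : Set G) ⊆ V := by
    intro V hV
    obtain ⟨m, hm⟩ := hb V hV
    exact ⟨m, fun x hx => hm (hc.mono (Nat.le_add_left m a) hx)⟩
  have hn : ∀ n, (K (a + n) : Set G) ∈ 𝓝 (1 : G) := fun n => (hop _).mem_nhds (one_mem _)
  have hc' : Chain p fun m => K (a + m) :=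
    { pos := hc.pos
      le := fun n => hc.le (a + n)
      comm := fun m k hk l hl => hc.comm (a + m) k (hc.mono (Nat.zero_le _) hk) l hl
      pow := fun m k hk => hc.pow (a + m) k hk
      root := fun m l hl => hc.root (a + m) l hl
      fin := fun m => hc.fin (a + m) }
  exact ⟨a, q,
    { chain := hc'
      idx := hq
      opn := fun n => hop _
      cpt := fun n => hcp _
      bas := hb'
      cpl := cpl_of hc'.le (fun n => hop _) (fun n => hcp _)
      inter := inter_of hb'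
      conj := conj_of (fun n => hop _) hb'
      cent := fun r g h => hcent _ (hn r) g h
      noab := fun b T h1 h2 => hnoab _ (hn b) T h1 h2 }⟩

end Vale.Agent.P092.H473.Res
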