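import Vale.Agent.P092.H473.Res3
import Vale.Agent.P092.H473.Grp1

/-!
P092 (helper473), team C: theorem RES for a group `H₁` acting through a quotient `pr : H₁ → H`
(in use: `H₁` = the stabiliser of the point, `H = G₀ = PGL`), with the group inputs bundled in
`GrpH`.
-/

set_option linter.all false

namespace Vale.Agent.P092.H473.Res

open Vale.Agent.P092.H175.T1

variable {𝔸 G H H₁ : Type} [Ring 𝔸] [StarRing 𝔸] [Algebra ℂ 𝔸] [StarModule ℂ 𝔸] [Group G]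
  [Group H] [Group H₁]

/-- the elements fixed by the kernel of `pr` -/
def FixR (pr : H₁ →* H) (β₁ : H₁ →* (𝔸 →⋆ₐ[ℂ] 𝔸)) : StarSubalgebra ℂ 𝔸 where
  carrier := {a | ∀ r, pr r = 1 → β₁ r a = a}
  mul_mem' := fun {a b} ha hb r hr => by rw [map_mul, ha r hr, hb r hr]
  one_mem' := fun r _ => map_one _
  add_mem' := fun {a b} ha hb r hr => by rw [map_add, ha r hr, hb r hr]
  zero_mem' := fun r _ => map_zero _
  algebraMap_mem' := fun c r _ => AlgHomClass.commutes (β₁ r) c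
  star_mem' := fun {a} ha r hr => by rw [map_star, ha r hr]

/-- restriction of a morphism -/
def rst (S : StarSubalgebra ℂ 𝔸) (φ : 𝔸 →⋆ₐ[ℂ] 𝔸) (h : ∀ a ∈ S, φ a ∈ S) : S →⋆ₐ[ℂ] S :=
  (φ.comp S.subtype).codRestrict S fun a => h a a.2

theorem rst_coe (S : StarSubalgebra ℂ 𝔸) (φ : 𝔸 →⋆ₐ[ℂ] 𝔸) (h : ∀ a ∈ S, φ a ∈ S) (a : S) :
    ((rst S φ h a : S) : 𝔸) = φ a := rfl

/-- restriction of an action -/
def rsa {L : Type} [Group L] (S : StarSubalgebra ℂ 𝔸) (α : L →* (𝔸 →⋆ₐ[ℂ] 𝔸))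
    (h : ∀ g, ∀ a ∈ S, α g a ∈ S) : L →* (S →⋆ₐ[ℂ] S) where
  toFun g := rst S (α g) (h g)
  map_one' := by
    ext a
    change α 1 (a : 𝔸) = a
    rw [map_one]
    rfl
  map_mul' g g' := by
    ext a
    change α (g * g') (a : 𝔸) = α g (α g' a)
    exact alpha_mul g g' _

theorem rsa_coe {L : Type} [Group L] (S : StarSubalgebra ℂ 𝔸) (α : L →* (𝔸 →⋆ₐ[ℂ] 𝔸))
    (h : ∀ g, ∀ a ∈ S, α g a ∈ S) (g : L) (a : S) : ((rsa S α h g a : S) : 𝔸) = α g a := rfl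

/-- restriction of `P` -/
def rsP (S : StarSubalgebra ℂ 𝔸) (P : NonUnitalStarSubalgebra ℂ 𝔸) :
    NonUnitalStarSubalgebra ℂ S where
  carrier := {a | (a : 𝔸) ∈ P}
  mul_mem' := fun {a b} ha hb => mul_mem (S := NonUnitalStarSubalgebra ℂ 𝔸) ha hb
  add_mem' := fun {a b} ha hb => add_mem (S := NonUnitalStarSubalgebra ℂ 𝔸) ha hb
  zero_mem' := zero_mem P
  smul_mem' := fun c a ha => SMulMemClass.smul_mem (S := NonUnitalStarSubalgebra ℂ 𝔸) c ha
  star_mem' := fun {a} ha => star_mem (S := NonUnitalStarSubalgebra ℂ 𝔸) ha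

theorem mem_rsP {S : StarSubalgebra ℂ 𝔸} {P : NonUnitalStarSubalgebra ℂ 𝔸} {a : S} :
    a ∈ rsP S P ↔ (a : 𝔸) ∈ P := Iff.rfl

section fix

variable {pr : H₁ →* H} {β₁ : H₁ →* (𝔸 →⋆ₐ[ℂ] 𝔸)}

theorem mem_FixR {a : 𝔸} : a ∈ FixR pr β₁ ↔ ∀ r, pr r = 1 → β₁ r a = a := Iff.rfl

theorem fix_beta (w : H₁) : ∀ a ∈ FixR pr β₁, β₁ w a ∈ FixR pr β₁ := by
  intro a ha r hr
  have h1 : r * w = w * (w⁻¹ * r * w) := by group
  have h2 : pr (w⁻¹ * r * w) = 1 := by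
    rw [map_mul, map_mul, hr, mul_one, ← map_mul, inv_mul_cancel, map_one]
  rw [← alpha_mul, h1, alpha_mul, ha _ h2]

theorem beta_congr {w w' : H₁} (h : pr w = pr w') {a : 𝔸} (ha : a ∈ FixR pr β₁) :
    β₁ w a = β₁ w' a := by
  have h1 : w' = w * (w⁻¹ * w') := by group
  have h2 : pr (w⁻¹ * w') = 1 := by rw [map_mul, map_inv, h, inv_mul_cancel]
  rw [h1, alpha_mul, ha _ h2]

/-- the action of the quotient -/
noncomputable def bq (pr : H₁ →* H) (hpr : Function.Surjective pr)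
    (β₁ : H₁ →* (𝔸 →⋆ₐ[ℂ] 𝔸)) : H →* (FixR pr β₁ →⋆ₐ[ℂ] FixR pr β₁) where
  toFun h := rst (FixR pr β₁) (β₁ (Function.surjInv hpr h)) (fix_beta _)
  map_one' := by
    ext a
    change β₁ (Function.surjInv hpr 1) (a : 𝔸) = a
    exact a.2 _ (Function.surjInv_eq hpr 1)
  map_mul' g g' := by
    ext a
    change β₁ (Function.surjInv hpr (g * g')) (a : 𝔸) =
      β₁ (Function.surjInv hpr g) (β₁ (Function.surjInv hpr g') a)
    rw [← alpha_mul]
    refine beta_congr ?_ a.2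
    rw [map_mul, Function.surjInv_eq hpr, Function.surjInv_eq hpr, Function.surjInv_eq hpr]

theorem bq_pr (hpr : Function.Surjective pr) (w : H₁) (a : FixR pr β₁) :
    ((bq pr hpr β₁ (pr w) a : FixR pr β₁) : 𝔸) = β₁ w a :=
  beta_congr (Function.surjInv_eq hpr (pr w)) a.2

end fix

/-! ### transfer of the notions of T1 -/

section transfer

variable {S : StarSubalgebra ℂ 𝔸} {α : G →* (𝔸 →⋆ₐ[ℂ] 𝔸)} {hα : ∀ g, ∀ a ∈ S, α g a ∈ S}
  {P : NonUnitalStarSubalgebra ℂ 𝔸} {U : ℕ → Subgroup G} {p n m : ℕ}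

theorem mem_Qn_iff {a : S} : a ∈ Qn (rsa S α hα) (rsP S P) U n ↔ (a : 𝔸) ∈ Qn α P U n := by
  rw [mem_Qn, mem_Qn, mem_rsP]
  refine and_congr Iff.rfl (forall₂_congr fun k hk => ?_)
  rw [← rsa_coe S α hα, Subtype.ext_iff]

theorem mem_Cor_iff {a e : S} :
    a ∈ Cor (rsa S α hα) (rsP S P) U n e ↔ (a : 𝔸) ∈ Cor α P U n (e : 𝔸) := by
  rw [mem_Cor, mem_Cor, mem_Qn_iff, Subtype.ext_iff, Subtype.ext_iff]
  rfl

theorem minP_iff (hPS : ∀ a ∈ P, a ∈ S) {e : S} :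
    MinP (rsa S α hα) (rsP S P) U n e ↔ MinP α P U n (e : 𝔸) := by
  constructor
  · intro h
    refine ⟨mem_Qn_iff.1 h.mem, congrArg Subtype.val h.sa, congrArg Subtype.val h.idem,
      fun h0 => h.ne (Subtype.ext h0), fun a ha => ?_⟩
    have haS : a ∈ S := hPS a ha.1.1
    obtain ⟨c, hc⟩ := h.scal ⟨a, haS⟩ (mem_Cor_iff.2 ha)
    exact ⟨c, congrArg Subtype.val hc⟩
  · intro h
    refine ⟨mem_Qn_iff.2 h.mem, Subtype.ext h.sa, Subtype.ext h.idem,
      fun h0 => h.ne (congrArg Subtype.val h0), fun a ha => ?_⟩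
    obtain ⟨c, hc⟩ := h.scal a (mem_Cor_iff.1 ha)
    exact ⟨c, Subtype.ext hc⟩

theorem sg_eq (hPS : ∀ a ∈ P, a ∈ S) {e : S} :
    Sg (rsa S α hα) (rsP S P) U e m = Sg α P U (e : 𝔸) m := by
  ext χ
  change ((∀ k, k ∉ U m → χ k = 0) ∧ ∃ z ∈ Cor (rsa S α hα) (rsP S P) U (m + 1) e, z ≠ 0 ∧
    Wt (rsa S α hα) U m χ z) ↔ ((∀ k, k ∉ U m → χ k = 0) ∧ ∃ z ∈ Cor α P U (m + 1) (e : 𝔸),
    z ≠ 0 ∧ Wt α U m χ z)
  refine and_congr Iff.rfl ⟨?_, ?_⟩
  · rintro ⟨z, hz, hz0, hw⟩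
    exact ⟨z, mem_Cor_iff.1 hz, fun h0 => hz0 (Subtype.ext h0), fun k hk =>
      congrArg Subtype.val (hw k hk)⟩
  · rintro ⟨z, hz, hz0, hw⟩
    have hzS : z ∈ S := hPS z hz.1.1
    exact ⟨⟨z, hzS⟩, mem_Cor_iff.2 hz, fun h0 => hz0 (congrArg Subtype.val h0), fun k hk =>
      Subtype.ext (hw k hk)⟩

theorem opt_of (hPS : ∀ a ∈ P, a ∈ S) {e : S} (h : Opt (rsa S α hα) (rsP S P) U n e) :
    Opt α P U n (e : 𝔸) := by
  refine ⟨(minP_iff hPS).1 h.1, fun m f hf => ?_⟩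
  have hfS : f ∈ S := hPS f hf.mem.1
  have h1 := h.2 m ⟨f, hfS⟩ ((minP_iff hPS).2 hf)
  rw [sg_eq hPS, sg_eq hPS] at h1
  exact h1

theorem sys_of (hs : Sys α P U p) : Sys (rsa S α hα) (rsP S P) U p where
  chain := hs.chain
  act := fun k hk a ha => hs.act k hk a ha
  pos := by
    intro ι s a h0 i hi
    have h1 : ∑ i ∈ s, star (a i : 𝔸) * (a i : 𝔸) = 0 := by
      have h2 := congrArg Subtype.val h0
      rw [AddSubmonoidClass.coe_finset_sum] at h2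
      exact h2
    exact Subtype.ext (hs.pos s (fun i => (a i : 𝔸)) h1 i hi)

end transfer

/-! ### the theorem -/

/-- Hypotheses of theorem RES for a group `H₁` acting through a quotient `pr : H₁ → H`; the groups
`G`, `H` have the chains `U`, `W` of `GrpH`. -/
structure ResQ (pr : H₁ →* H) (α : G →* (𝔸 →⋆ₐ[ℂ] 𝔸)) (β₁ : H₁ →* (𝔸 →⋆ₐ[ℂ] 𝔸))
    (P : NonUnitalStarSubalgebra ℂ 𝔸) (U : ℕ → Subgroup G) (W : ℕ → Subgroup H) (p : ℕ) :
    Prop where
  sys : Sys α P U p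
  cm : ∀ g h a, α g (β₁ h a) = β₁ h (α g a)
  actG : ∀ g, ∀ a ∈ P, α g a ∈ P
  actH : ∀ h, ∀ a ∈ P, β₁ h a ∈ P
  rad : ∀ r, pr r = 1 → ∀ a ∈ P, β₁ r a = a
  smG : ∀ a ∈ P, ∃ n, ∀ u ∈ U n, α u a = a
  smH : ∀ a ∈ P, ∃ n, ∀ w, pr w ∈ W n → β₁ w a = a
  hex : ∃ n e, MinP α P U n e
  hE : ∀ n f, MinP α P U n f → ∀ y ∈ P, (∀ g, y * α g f = 0) → y = 0

theorem antitone_of_chain {L : Type} [Group L] {p : ℕ} {W : ℕ → Subgroup L} (h : Chain p W) :
    Antitone W := antitone_nat_of_succ_le h.le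

theorem relIndex_comap {pr : H₁ →* H} (hpr : Function.Surjective pr) (A B : Subgroup H) :
    (A.comap pr).relIndex (B.comap pr) = A.relIndex B := by
  rw [Subgroup.relIndex_comap, Subgroup.map_comap_eq_self_of_surjective hpr]

variable {pr : H₁ →* H} {α : G →* (𝔸 →⋆ₐ[ℂ] 𝔸)} {β₁ : H₁ →* (𝔸 →⋆ₐ[ℂ] 𝔸)}
  {P : NonUnitalStarSubalgebra ℂ 𝔸} {U : ℕ → Subgroup G} {W : ℕ → Subgroup H} {p q : ℕ}
  [TopologicalSpace G] [TopologicalSpace H] [IsTopologicalGroup H]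

/-- **Theorem RES, quotient form.** -/
theorem dichQ (hpr : Function.Surjective pr) (h : ResQ pr α β₁ P U W p) (hU : GrpH p q U)
    (hW : GrpH p q W) :
    (∃ a n m0 f x, H375.RB α β₁ P U (fun j => (W j).comap pr) p q a n m0 f x) ∨
    ∃ r : H₁, pr r ≠ 1 ∧ ∀ y ∈ P, β₁ r y = y := by
  classical
  have hPS : ∀ a ∈ P, a ∈ FixR pr β₁ := fun a ha r hr => h.rad r hr a ha
  have hα : ∀ g, ∀ a ∈ FixR pr β₁, α g a ∈ FixR pr β₁ := fun g a ha r hr => by
    rw [← h.cm, ha r hr]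
  set S := FixR pr β₁ with hS
  set α' := rsa S α hα with hα'
  set β' := bq pr hpr β₁ with hβ'
  set P' := rsP S P with hP'
  have hβc : ∀ (w : H₁) (a : S), ((β' (pr w) a : S) : 𝔸) = β₁ w a := fun w a => bq_pr hpr w a
  have hαc : ∀ (g : G) (a : S), ((α' g a : S) : 𝔸) = α g a := fun g a => rfl
  have hres : ResH α' β' P' U W p q :=
    { sys := sys_of h.sys
      cm := fun g w a => by
        obtain ⟨w, rfl⟩ := hpr w
        refine Subtype.ext ?_
        rw [hαc, hβc, hβc, hαc, h.cm]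
      actG := fun g a ha => h.actG g a ha
      actH := fun w a ha => by
        obtain ⟨w, rfl⟩ := hpr w
        rw [hP', mem_rsP, hβc]
        exact h.actH w a ha
      smG := fun a ha => by
        obtain ⟨n, hn⟩ := h.smG a ha
        exact ⟨n, fun u hu => Subtype.ext (hn u hu)⟩
      smH := fun a ha => by
        obtain ⟨n, hn⟩ := h.smH a ha
        refine ⟨n, fun w hw => ?_⟩
        obtain ⟨w, rfl⟩ := hpr w
        refine Subtype.ext ?_
        rw [hβc]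
        exact hn w hw
      hex := by
        obtain ⟨n, e, he⟩ := h.hex
        have heS : e ∈ S := hPS e he.mem.1
        exact ⟨n, ⟨e, heS⟩, (minP_iff hPS).2 he⟩
      hE := fun n f hf y hy h0 => Subtype.ext (h.hE n f ((minP_iff hPS).1 hf) y hy fun g =>
        congrArg Subtype.val (h0 g))
      Uq := fun m => (hU.idx m).le
      cpl := hU.cpl
      inter := hU.inter
      conj := hU.conj
      cent := hU.cent
      Wch := hW.chain
      Wq := fun j => (hW.idx j).ge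
      Wcomp := hW.cpt 0
      Wop := hW.opn
      Wsep := hW.inter }
  rcases dich hres with ⟨a, n, m0, f, x, hR⟩ | ⟨b, T, hTb, ⟨w0, hw0, hw1⟩, hTn, hTc⟩
  · left
    refine ⟨a, n, m0, f, fun m => (x m : 𝔸),
      { sys := h.sys
        opt := opt_of hPS hR.opt
        cm := h.cm
        aG := h.actG
        aH := fun w _ => h.actH w
        x_min := fun m hm => (minP_iff hPS).1 (hR.x_min m hm)
        x_f := fun m hm => congrArg Subtype.val (hR.x_f m hm)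
        x_x := fun m hm => congrArg Subtype.val (hR.x_x m hm)
        wf := fun w hw => by
          rw [← hβc, hR.wf _ hw]
        aW := fun i j hij => Subgroup.comap_mono (hR.aW hij)
        Uq := hR.Uq
        Wq := fun j hj => by
          rw [relIndex_comap hpr]
          exact hR.Wq j hj
        am0 := hR.am0
        free := fun i w hw h1 => hR.free i (pr w) hw (Subtype.ext (by rw [hβc]; exact h1))
        cpl := hR.cpl
        inter := hR.inter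
        conj := hR.conj
        cent := hR.cent
        smU := h.smG
        smW := fun y hy => h.smH y hy }⟩
  · right
    obtain ⟨s, hs, t, ht, hst⟩ := hW.noab b T ⟨w0, hw0, fun h1 => hw1 (h1 ▸ one_mem _)⟩ hTn
    obtain ⟨r, hr⟩ := hpr ((t * s)⁻¹ * (s * t))
    refine ⟨r, ?_, fun y hy => ?_⟩
    · rw [hr]
      intro h1
      exact hst (inv_mul_eq_one.1 h1).symm
    · have hyS : y ∈ S := hPS y hy
      have h1 := hTc s hs t ht ⟨y, hyS⟩ hy
      have h2 : β' (pr r) ⟨y, hyS⟩ = ⟨y, hyS⟩ := by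
        rw [hr, alpha_mul, h1, ← alpha_mul, inv_mul_cancel, map_one]
        rfl
      have h3 := congrArg Subtype.val h2
      rw [hβc] at h3
      exact h3

/-- **Theorem RES, quotient form, short.** -/
theorem resQ (hpr : Function.Surjective pr) (h : ResQ pr α β₁ P U W p) (hU : GrpH p q U)
    (hW : GrpH p q W) :
    (∀ y ∈ P, ∀ z ∈ P, y * z = z * y) ∨ ∃ r : H₁, pr r ≠ 1 ∧ ∀ y ∈ P, β₁ r y = y := by
  rcases dichQ hpr h hU hW with ⟨a, n, m0, f, x, hR⟩ | h1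
  · exact Or.inl (hR.b6 (h.hE a f hR.opt.1))
  · exact Or.inr h1

end Vale.Agent.P092.H473.Res
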