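import Vale.Agent.P092.RC.Defs
import Vale.Agent.P092.H307.Erg
import Vale.Agent.P092.H200.Sheet2
import Vale.Agent.P092.H473.Res4

/-!
P092 (helper473), TEAM C, block [C-RESQ]: from the letters of `RC/Defs` to the dichotomy of theorem
RES on the residue algebra (helper200's `Sheet`), the source group being the stabiliser of the point.
-/

set_option linter.all false

open Filter Topology ContinuousLinearMap TopologicalSpace

namespace Vale.Agent.P092.H473.RQ

open Vale.Agent.P092.RC Vale.Agent.P092.H820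
open Vale.Agent.P092.H200.Sheet (Dat Sh Lev tr al be)
open Vale.Agent.P092.H175.T1 (Sys Chain MinP)
open Vale.Agent.P092.H473.Res (GrpH ResQ dichQ)

variable {G Γ Y G₀ K : Type} [Group G] [TopologicalSpace G] [Group Γ] [TopologicalSpace Y]
  [MulAction G Y] [Group G₀] [TopologicalSpace G₀] [NormedAddCommGroup K] [InnerProductSpace ℂ K]
  [CompleteSpace K]

/-! ### the stabiliser and its projection -/

section geo

variable {c : G → Y → G₀} {y₀ : Y}

theorem c_one (hG : Geo c y₀) (y : Y) : c 1 y = 1 := by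
  have h1 := hG.mul 1 1 y
  rw [one_smul, mul_one] at h1
  exact (mul_eq_left.1 h1.symm)

variable (y₀) in
/-- the stabiliser of the base point -/
abbrev St : Subgroup G := MulAction.stabilizer G y₀

/-- the projection of the stabiliser onto `G₀` -/
def prj (hG : Geo c y₀) : (St y₀ : Subgroup G) →* G₀ where
  toFun p := c p y₀
  map_one' := c_one hG y₀
  map_mul' p p' := by
    change c ((p : G) * (p' : G)) y₀ = c p y₀ * c p' y₀
    rw [hG.mul, p'.2]

theorem prj_apply (hG : Geo c y₀) (p : (St y₀ : Subgroup G)) : prj hG p = c p y₀ := rfl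

theorem prj_surj (hG : Geo c y₀) : Function.Surjective (prj hG) := by
  intro h
  obtain ⟨g, hg, h1⟩ := hG.lev h
  exact ⟨⟨g, hg⟩, h1⟩

theorem prj_cont (hG : Geo c y₀) : Continuous (prj hG) := by
  have h1 : Continuous fun p : (St y₀ : Subgroup G) => ((p : G), y₀) := by fun_prop
  exact hG.cont.comp h1

theorem isClosed_St (hG : Geo c y₀) : IsClosed ((St y₀ : Subgroup G) : Set G) := by
  haveI := hG.t2
  have h1 : Continuous fun g : G => g • y₀ := by
    have h2 : Continuous fun g : G => (g, y₀) := by fun_prop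
    exact hG.cact.comp h2
  exact isClosed_eq h1 continuous_const

theorem prj_open (hG : Geo c y₀) [SigmaCompactSpace G] [BaireSpace G₀] : IsOpenMap (prj hG) := by
  haveI := hG.tg
  haveI := hG.tg₀
  haveI := hG.t2₀
  haveI : SigmaCompactSpace (St y₀ : Subgroup G) :=
    (isClosed_St hG).isClosedEmbedding_subtypeVal.sigmaCompactSpace
  exact MonoidHom.isOpenMap_of_sigmaCompact _ (prj_surj hG) (prj_cont hG)

end geo

/-! ### the data of helper200 -/

/-- the operators with which the residue algebra commutes -/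
def SS (π : G →* (K →L[ℂ] K)) (W' : Set (K →L[ℂ] K)) (c : G → Y → G₀) (y₀ : Y) :
    Set (K →L[ℂ] K) := W' ∪ {T | ∃ r : G, r • y₀ = y₀ ∧ c r y₀ = 1 ∧ T = π r}

/-- the representation of the stabiliser -/
def πs (π : G →* (K →L[ℂ] K)) (y₀ : Y) : (St y₀ : Subgroup G) →* (K →L[ℂ] K) :=
  π.comp (St y₀).subtype

theorem πs_apply (π : G →* (K →L[ℂ] K)) (y₀ : Y) (p : (St y₀ : Subgroup G)) :
    πs π y₀ p = π p := rfl

section dat

variable [ContinuousConstSMul G Y] [MulAction Γ Y] [ContinuousConstSMul Γ Y]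
variable {π : G →* (K →L[ℂ] K)} {lam : Γ →* (K →L[ℂ] K)} {W W' : Set (K →L[ℂ] K)} {Ω : K}
  {q : Γ →* G} {c : G → Y → G₀} {y₀ : Y} {E : Clopens Y → (K →L[ℂ] K)} {U : Subgroup G₀}
  {a : G₀ → (K →L[ℂ] K)}

theorem tr_eq (hq : ∀ (γ : Γ) (y : Y), γ • y = q γ • y) (γ : Γ) (C : Clopens Y) :
    tr γ C = sm (q γ) C := by
  ext y
  change γ⁻¹ • y ∈ C ↔ (q γ)⁻¹ • y ∈ C
  rw [hq, map_inv]

theorem dat (hq : ∀ (γ : Γ) (y : Y), γ • y = q γ • y) (hG : Geo c y₀) (hP : Pic π lam W Ω)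
    (hL : Lim π lam W q y₀ E) (hX : Ext π lam W W' y₀ E)
    (hR : Moore {r : G | r • y₀ = y₀ ∧ c r y₀ = 1}) :
    Dat lam E (SS π W' c y₀) (πs π y₀) (fun γ y => c (q γ) y) where
  lam_star γ := by rw [star_eq_adjoint, hP.adjL]
  pi_star w := by
    rw [star_eq_adjoint, πs_apply, hP.adjP]
    rfl
  cpv := hL.cpv
  lam_E γ A := by rw [hL.cov, tr_eq hq]
  pi_lam w γ := hP.comm w γ
  pi_E w A := hL.par w w.2 A
  S_star := by
    rintro s (hs | ⟨r, hr, hr1, rfl⟩)
    · left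
      rw [star_eq_adjoint]
      exact hX.adj s hs
    · right
      refine ⟨r⁻¹, ?_, ?_, ?_⟩
      · rw [inv_smul_eq_iff, hr]
      · have h1 := map_inv (prj hG) ⟨r, hr⟩
        rw [prj_apply, prj_apply] at h1
        change c r⁻¹ y₀ = (c r y₀)⁻¹ at h1
        rw [h1, hr1, inv_one]
      · rw [star_eq_adjoint, hP.adjP]
  S_lam := by
    rintro s (hs | ⟨r, hr, hr1, rfl⟩) γ
    · exact hX.lam s hs γ
    · exact hP.comm r γ
  S_E := by
    rintro s (hs | ⟨r, hr, hr1, rfl⟩) A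
    · exact (hX.cE A s hs).symm
    · exact hL.par r hr A
  pi_S := by
    rintro w s (hs | ⟨r, hr, hr1, rfl⟩)
    · left
      exact hX.par s hs w w.2
    · right
      refine ⟨(w : G) * r * (w : G)⁻¹, ?_, ?_, ?_⟩
      · have hw : (w : G) • y₀ = y₀ := w.2
        have hw' : (w : G)⁻¹ • y₀ = y₀ := by rw [inv_smul_eq_iff, hw]
        rw [mul_smul, mul_smul, hw', hr, hw]
      · have h1 : prj hG (w * ⟨r, hr⟩ * w⁻¹) = 1 := by
          have h2 : prj hG ⟨r, hr⟩ = 1 := hr1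
          rw [map_mul, map_mul, h2, mul_one, ← map_mul, mul_inv_cancel, map_one]
        exact h1
      · rw [map_mul, map_mul]
        rfl
  c_mul γ γ' y := by
    change c (q (γ * γ')) y = c (q γ) (γ' • y) * c (q γ') y
    rw [map_mul, hG.mul, hq]
  c_cont γ := by
    have h1 : Continuous fun y : Y => (q γ, y) := by fun_prop
    exact hG.cont.comp h1
  erg t h1 h2 := by
    refine hP.erg _ hR t (fun w hw => (h1 w (Or.inl (hX.sub hw))).symm) (fun γ => (h2 γ).symm)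
      fun r hr => (h1 (π r) (Or.inr ⟨r, hr.1, hr.2, rfl⟩)).symm

theorem res_of (hq : ∀ (γ : Γ) (y : Y), γ • y = q γ • y)
    (h : Sh lam E (SS π W' c y₀) (fun γ y => c (q γ) y) U a) (hb : ∃ B : ℝ, ∀ h, ‖a h‖ ≤ B) :
    Res π lam W' q c y₀ E U a where
  bdd := hb
  rinv := h.inv
  cm x w hw := (h.comm x w (Or.inl hw)).symm
  rad r hr hr1 x := h.comm x _ (Or.inr ⟨r, hr, hr1, rfl⟩)
  cE x C := (h.commE x C).symm
  eqv γ x x' C hC := by
    rw [← tr_eq hq]
    refine h.eqv γ x x' C fun y hy => ?_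
    have h1 := inv_mem (hC y hy)
    rwa [mul_inv_rev, inv_inv] at h1

theorem sh_of (hq : ∀ (γ : Γ) (y : Y), γ • y = q γ • y) (h : Res π lam W' q c y₀ E U a) :
    Sh lam E (SS π W' c y₀) (fun γ y => c (q γ) y) U a where
  inv := h.rinv
  comm := by
    rintro x s (hs | ⟨r, hr, hr1, rfl⟩)
    · exact (h.cm x s hs).symm
    · exact h.rad r hr hr1 x
  commE x C := (h.cE x C).symm
  eqv γ x x' C hC := by
    rw [tr_eq hq]
    refine h.eqv γ x x' C fun y hy => ?_
    have h1 := inv_mem (hC y hy)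
    rwa [mul_inv_rev, inv_inv] at h1

/-! ### smoothness -/

variable {Kn : ℕ → Subgroup G₀} {p n : ℕ}

theorem lev_of (hK : GrpH p n Kn) : Lev Kn where
  anti := antitone_nat_of_succ_le hK.chain.le
  opn := hK.opn
  bas := hK.bas

/-- the levels of the stabiliser -/
def Wn (hG : Geo c y₀) (Kn : ℕ → Subgroup G₀) : ℕ → Subgroup (St y₀ : Subgroup G) :=
  fun m => (Kn m).comap (prj hG)

theorem mem_Wn {hG : Geo c y₀} {m : ℕ} {w : (St y₀ : Subgroup G)} :
    w ∈ Wn hG Kn m ↔ c w y₀ ∈ Kn m := Iff.rfl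

/-- smoothness in the letters of `Hat` gives smoothness in the letters of helper200. -/
theorem smooth_of [SigmaCompactSpace G] [BaireSpace G₀] (hG : Geo c y₀)
    (hbas : ∀ V ∈ 𝓝 (1 : G₀), ∃ m, (Kn m : Set G₀) ⊆ V)
    (hrad : ∀ r : G, r • y₀ = y₀ → c r y₀ = 1 → ∀ h, π r * a h = a h * π r)
    (hs : ∃ V : Subgroup G, IsOpen (V : Set G) ∧ ∀ p ∈ V, p • y₀ = y₀ →
      ∀ h, π p * a h = a h * π p) :
    ∃ m, ∀ w ∈ Wn hG Kn m, ∀ h, πs π y₀ w * a h * πs π y₀ w⁻¹ = a h := by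
  obtain ⟨V, hV, hVa⟩ := hs
  have h1 : IsOpen ((fun x : (St y₀ : Subgroup G) => (x : G)) ⁻¹' (V : Set G)) :=
    hV.preimage continuous_subtype_val
  have h2 := prj_open hG _ h1
  have h3 : (prj hG) '' ((fun x : (St y₀ : Subgroup G) => (x : G)) ⁻¹' (V : Set G)) ∈
      𝓝 (1 : G₀) := h2.mem_nhds ⟨1, V.one_mem, map_one _⟩
  obtain ⟨m, hm⟩ := hbas _ h3
  refine ⟨m, fun w hw h => ?_⟩
  obtain ⟨v, hv, hvw⟩ := hm hw
  -- `w = v r`
  have hr : prj hG (v⁻¹ * w) = 1 := by rw [map_mul, map_inv, hvw, inv_mul_cancel]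
  have h4 : πs π y₀ w = π v * π ((v⁻¹ * w : (St y₀ : Subgroup G)) : G) := by
    rw [← map_mul, πs_apply]
    congr 1
    simp
  have h5 : πs π y₀ w * a h = a h * πs π y₀ w := by
    rw [h4, mul_assoc, hrad _ (v⁻¹ * w).2 hr h, ← mul_assoc, hVa v hv v.2 h, mul_assoc]
  rw [h5, mul_assoc, ← map_mul, mul_inv_cancel, map_one, mul_one]

theorem norm_le_one {T : K →L[ℂ] K} (h0 : 0 ≤ T) (h1 : T ≤ 1) : ‖T‖ ≤ 1 :=
  (CStarAlgebra.norm_le_one_iff_of_nonneg T h0).2 h1

variable (hq : ∀ (γ : Γ) (y : Y), γ • y = q γ • y) (hG : Geo c y₀) (hP : Pic π lam W Ω)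
    (hL : Lim π lam W q y₀ E) (hX : Ext π lam W W' y₀ E)
    (hR : Moore {r : G | r • y₀ = y₀ ∧ c r y₀ = 1}) (hK : GrpH p n Kn)

include hK

/-- smooth elements (in the letters of `ZFam.max`) belong to the algebra -/
theorem mem_P_of [SigmaCompactSpace G] [BaireSpace G₀] (hU : IsOpen (U : Set G₀))
    (ha : Res π lam W' q c y₀ E U a)
    (hs : ∃ V : Subgroup G, IsOpen (V : Set G) ∧ ∀ p ∈ V, p • y₀ = y₀ →
      ∀ h, π p * a h = a h * π p) :
    a ∈ (dat hq hG hP hL hX hR).P Kn (Wn hG Kn) := by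
  have hlev := lev_of hK
  refine ⟨?_, ?_, ha.bdd⟩
  · haveI := hG.tg₀
    filter_upwards [hlev.ev (hU.mem_nhds U.one_mem)] with m hm
    exact (sh_of hq ha).mono hm
  · obtain ⟨m, hm⟩ := smooth_of (Kn := Kn) hG hK.bas ha.rad hs
    filter_upwards [eventually_ge_atTop m] with m' hm' w hw h
    exact hm w (hlev.anti hm' hw) h

theorem hat_mem_P [SigmaCompactSpace G] [BaireSpace G₀] (hH : Hat π lam W' Ω q c y₀ E U a) :
    a ∈ (dat hq hG hP hL hX hR).P Kn (Wn hG Kn) :=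
  mem_P_of hq hG hP hL hX hR hK hH.cos.2 hH.res hH.smooth

/-- **The hypotheses of theorem RES** in the letters of `RC/Defs`, up to the existence of a minimal
projection. -/
theorem resQ_of (hex : ∃ n e, MinP al ((dat hq hG hP hL hX hR).P Kn (Wn hG Kn)) Kn n e) :
    ResQ (prj hG) al (be (πs π y₀) (dat hq hG hP hL hX hR).pi_star)
      ((dat hq hG hP hL hX hR).P Kn (Wn hG Kn)) Kn Kn p := by
  haveI := hG.tg₀
  haveI := hG.cpt
  have hD := dat hq hG hP hL hX hR
  have hlev := lev_of hK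
  refine
    { sys := H200.Sheet.sys _ hlev hK.chain
      cm := fun g h b => rfl
      actG := fun g b hb => H200.Sheet.al_mem_P _ hlev g hb
      actH := fun w b hb => H200.Sheet.be_mem_P _ w (fun m => ?_) hb
      rad := fun r hr b hb => ?_
      smG := fun b hb => ?_
      smH := fun b hb => ?_
      hex := hex
      hE := fun m f hf y hy h0 => H307.hE _ hlev hf.mem.1 hf.ne y h0 }
  · filter_upwards [hlev.conj (prj hG w) m] with m' hm' v hv
    change prj hG (w⁻¹ * v * w) ∈ Kn m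
    rw [map_mul, map_mul, map_inv]
    exact hm' _ hv
  · obtain ⟨m, hm⟩ := hb.1.exists
    funext x
    have h1 := hm.comm x (π r) (Or.inr ⟨r, r.2, hr, rfl⟩)
    change π r * b x * π (r⁻¹ : (St y₀ : Subgroup G)) = b x
    rw [h1, mul_assoc, ← map_mul]
    change b x * π ((r : G) * (r : G)⁻¹) = b x
    rw [mul_inv_cancel, map_one, mul_one]
  · obtain ⟨m, hm⟩ := hb.1.exists
    exact ⟨m, fun u hu => funext fun x => hm.inv x u hu⟩
  · obtain ⟨m, hm⟩ := hb.2.1.exists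
    exact ⟨m, fun w hw => funext fun x => hm w hw x⟩

/-- **The dichotomy of theorem RES** in the letters of `RC/Defs`. -/
theorem dichC (hex : ∃ n e, MinP al ((dat hq hG hP hL hX hR).P Kn (Wn hG Kn)) Kn n e) :
    (∃ a₁ n₁ m₀ f x, H375.RB al (be (πs π y₀) (dat hq hG hP hL hX hR).pi_star)
      ((dat hq hG hP hL hX hR).P Kn (Wn hG Kn)) Kn (Wn hG Kn) p n a₁ n₁ m₀ f x) ∨
    ∃ r : G, r • y₀ = y₀ ∧ c r y₀ ≠ 1 ∧
      ∀ b ∈ (dat hq hG hP hL hX hR).P Kn (Wn hG Kn), ∀ h, π r * b h = b h * π r := by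
  haveI := hG.tg₀
  rcases dichQ (prj_surj hG) (resQ_of hq hG hP hL hX hR hK hex) hK hK with h1 | ⟨r, hr, h1⟩
  · exact Or.inl h1
  · refine Or.inr ⟨r, r.2, hr, fun b hb h => ?_⟩
    have h2 := congrFun (h1 b hb) h
    change π r * b h * π (r⁻¹ : (St y₀ : Subgroup G)) = b h at h2
    have h3 : π (r⁻¹ : (St y₀ : Subgroup G)) * π r = 1 := by
      rw [← map_mul]
      change π ((r : G)⁻¹ * (r : G)) = 1
      rw [inv_mul_cancel, map_one]
    calc π r * b h = π r * b h * (π (r⁻¹ : (St y₀ : Subgroup G)) * π r) := by rw [h3, mul_one]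
      _ = (π r * b h * π (r⁻¹ : (St y₀ : Subgroup G))) * π r := by simp only [mul_assoc]
      _ = b h * π r := by rw [h2]

/-- The dichotomy, second alternative in the letters of `c_ker` (helper828). -/
theorem dichC' [SigmaCompactSpace G] [BaireSpace G₀]
    (hex : ∃ n e, MinP al ((dat hq hG hP hL hX hR).P Kn (Wn hG Kn)) Kn n e) :
    (∃ a₁ n₁ m₀ f x, H375.RB al (be (πs π y₀) (dat hq hG hP hL hX hR).pi_star)
      ((dat hq hG hP hL hX hR).P Kn (Wn hG Kn)) Kn (Wn hG Kn) p n a₁ n₁ m₀ f x) ∨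
    ∃ r : G, r • y₀ = y₀ ∧ c r y₀ ≠ 1 ∧
      ∀ (U' : Subgroup G₀) (b : G₀ → (K →L[ℂ] K)), SR.COS U' → Res π lam W' q c y₀ E U' b →
        (∃ V : Subgroup G, IsOpen (V : Set G) ∧ ∀ p ∈ V, p • y₀ = y₀ →
          ∀ h, π p * b h = b h * π p) → ∀ h, π r * b h = b h * π r := by
  rcases dichC hq hG hP hL hX hR hK hex with h1 | ⟨r, hr, hr1, h1⟩
  · exact Or.inl h1
  · exact Or.inr ⟨r, hr, hr1, fun U' b hU' hb hs =>
      h1 b (mem_P_of hq hG hP hL hX hR hK hU'.2 hb hs)⟩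

omit hK in
/-- elements of the algebra are elements of the residue algebra, smooth on the source side -/
theorem res_of_mem {b : G₀ → (K →L[ℂ] K)} (hb : b ∈ (dat hq hG hP hL hX hR).P Kn (Wn hG Kn)) :
    (∀ᶠ m in atTop, Res π lam W' q c y₀ E (Kn m) b) ∧
      ∀ᶠ m in atTop, ∀ w : G, w • y₀ = y₀ → c w y₀ ∈ Kn m → ∀ h, π w * b h = b h * π w := by
  obtain ⟨h1, h2, h3⟩ := hb
  refine ⟨?_, ?_⟩
  · filter_upwards [h1] with m hm
    exact res_of hq hm h3
  · filter_upwards [h2] with m hm w hw hw1 h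
    have h4 := hm ⟨w, hw⟩ hw1 h
    change π w * b h * π w⁻¹ = b h at h4
    have h5 : π w⁻¹ * π w = 1 := by rw [← map_mul, inv_mul_cancel, map_one]
    calc π w * b h = π w * b h * (π w⁻¹ * π w) := by rw [h5, mul_one]
      _ = (π w * b h * π w⁻¹) * π w := by simp only [mul_assoc]
      _ = b h * π w := by rw [h4]

end dat

end Vale.Agent.P092.H473.RQ
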