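import Vale.Agent.P092.H473.Grp1
import Vale.Agent.P092.H575.Uni

/-!
P092 (helper473), team C: the group inputs of theorem RES for `PGL_n(k)`, `k` a non-archimedean
local field of characteristic zero.
-/

set_option linter.all false

open Topology Filter Matrix

namespace Vale.Agent.P092.H473.Res

open Vale.Agent.P092.H175.T1

variable {k : Type} [NormedField k] {n : Type} [Fintype n] [DecidableEq n]

/-- transvections as units -/
def tv (i j : n) (h : i ≠ j) (s : k) : (Matrix n n k)ˣ where
  val := transvection i j s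
  inv := transvection i j (-s)
  val_inv := by rw [transvection_mul_transvection_same i j h, add_neg_cancel, transvection_zero]
  inv_val := by rw [transvection_mul_transvection_same i j h, neg_add_cancel, transvection_zero]

theorem tv_val (i j : n) (h : i ≠ j) (s : k) : (tv i j h s).val = 1 + single i j s := rfl

theorem tv_inv (i j : n) (h : i ≠ j) (s : k) : ((tv i j h s)⁻¹).val = 1 + single i j (-s) := rfl

theorem continuous_tra (i j : n) : Continuous fun s : k => transvection i j s := by
  refine continuous_matrix fun a b => ?_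
  simp only [transvection, Matrix.add_apply, Matrix.single_apply]
  split_ifs
  · exact continuous_const.add continuous_id
  · exact continuous_const.add continuous_const

theorem continuous_tv (i j : n) (h : i ≠ j) : Continuous fun s : k => tv i j h s := by
  rw [Units.continuous_iff]
  exact ⟨continuous_tra i j, (continuous_tra i j).comp continuous_neg⟩

theorem tv_zero (i j : n) (h : i ≠ j) : tv i j h (0 : k) = 1 := by
  ext1
  change transvection i j (0 : k) = 1
  exact transvection_zero i j

theorem ev_tv (i j : n) (h : i ≠ j) {s : ℕ → k} (hs : Tendsto s atTop (𝓝 0))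
    {V : Set ((Matrix n n k)ˣ ⧸ Subgroup.center (Matrix n n k)ˣ)}
    (hV : V ∈ 𝓝 (1 : (Matrix n n k)ˣ ⧸ Subgroup.center (Matrix n n k)ˣ)) :
    ∀ᶠ m in atTop, (QuotientGroup.mk (tv i j h (s m)) :
      (Matrix n n k)ˣ ⧸ Subgroup.center (Matrix n n k)ˣ) ∈ V := by
  have h1 : Continuous fun s : k => (QuotientGroup.mk (tv i j h s) :
      (Matrix n n k)ˣ ⧸ Subgroup.center (Matrix n n k)ˣ) :=
    QuotientGroup.continuous_mk.comp (continuous_tv i j h)
  have h2 := (h1.tendsto 0).comp hs
  rw [tv_zero] at h2
  exact h2 hV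

/-- commutation in the quotient: commutation up to a scalar -/
theorem comm_mk {a b : (Matrix n n k)ˣ}
    (h : (QuotientGroup.mk a : (Matrix n n k)ˣ ⧸ Subgroup.center (Matrix n n k)ˣ) *
      QuotientGroup.mk b = QuotientGroup.mk b * QuotientGroup.mk a) :
    ∃ l : k, b.val * a.val = l • (a.val * b.val) := by
  rw [← QuotientGroup.mk_mul, ← QuotientGroup.mk_mul, QuotientGroup.eq] at h
  obtain ⟨l, hl⟩ := Matrix.GeneralLinearGroup.mem_center_iff_val_mem_range_scalar.1 h
  refine ⟨l, ?_⟩
  have h1 : b * a = (a * b) * ((a * b)⁻¹ * (b * a)) := by group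
  have h2 := congrArg Units.val h1
  rw [Units.val_mul, Units.val_mul (a * b), ← hl, Units.val_mul] at h2
  rw [h2, Matrix.scalar_apply, ← Matrix.smul_one_eq_diagonal, Matrix.mul_smul, Matrix.mul_one]

variable [CharZero k]

theorem cent_pgl {s : ℕ → k} (hs : Tendsto s atTop (𝓝 0)) (hs0 : ∀ m, s m ≠ 0)
    (V : Set ((Matrix n n k)ˣ ⧸ Subgroup.center (Matrix n n k)ˣ))
    (hV : V ∈ 𝓝 (1 : (Matrix n n k)ˣ ⧸ Subgroup.center (Matrix n n k)ˣ))
    (g : (Matrix n n k)ˣ ⧸ Subgroup.center (Matrix n n k)ˣ) (hg : ∀ v ∈ V, v * g = g * v) :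
    g = 1 := by
  obtain ⟨g, rfl⟩ := QuotientGroup.mk_surjective g
  rw [QuotientGroup.eq_one_iff, Matrix.GeneralLinearGroup.mem_center_iff_val_mem_range_scalar]
  refine mem_range_scalar_of_commute_single fun i j hij => ?_
  obtain ⟨m, hm⟩ := (ev_tv i j hij hs hV).exists
  obtain ⟨l, hl⟩ := comm_mk (hg _ hm).symm
  -- `tv * g = l • (g * tv)`
  have hcard : (Fintype.card n : k) ≠ 0 := by
    have : Nonempty n := ⟨i⟩
    exact_mod_cast Fintype.card_ne_zero
  have htr : trace (tv i j hij (s m)).val = Fintype.card n := by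
    rw [tv_val, trace_add, trace_one, trace_single_eq_of_ne _ _ _ hij, add_zero]
  have h1 : (tv i j hij (s m)).val = l • (g.val * (tv i j hij (s m)).val * (g⁻¹).val) := by
    rw [← smul_mul_assoc, ← hl, mul_assoc, Units.mul_inv, mul_one]
  have h2 := congrArg trace h1
  rw [trace_smul, trace_mul_comm, ← mul_assoc, Units.inv_mul, one_mul, htr, smul_eq_mul] at h2
  have h3 : l = 1 := by
    have h4 : (l - 1) * (Fintype.card n : k) = 0 := by rw [sub_mul, one_mul, ← h2, sub_self]
    exact sub_eq_zero.1 ((mul_eq_zero.1 h4).resolve_right hcard)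
  rw [h3, one_smul, tv_val, add_mul, mul_add, one_mul, mul_one] at hl
  have h5 : single i j (s m) * g.val = g.val * single i j (s m) := add_left_cancel hl
  have h6 : single i j (s m) = s m • single i j (1 : k) := by
    rw [smul_single, smul_eq_mul, mul_one]
  rw [h6, smul_mul_assoc, mul_smul_comm] at h5
  exact smul_right_injective _ (hs0 m) h5

/-- a matrix commuting with two of its conjugates under a root subgroup -/
theorem two_conj {E X : Matrix n n k} (hE : E * E = 0) {s t : k} (hst : s ≠ t) (hs : s ≠ 0)
    (ht : t ≠ 0)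
    (h : ∀ r : k, r = s ∨ r = t → X * ((1 + r • E) * X * (1 + (-r) • E)) =
      ((1 + r • E) * X * (1 + (-r) • E)) * X) :
    X * (E * X - X * E) = (E * X - X * E) * X ∧ X * (E * X * E) = E * X * E * X := by
  set A := X * (E * X - X * E) - (E * X - X * E) * X with hA
  set B := X * (E * X * E) - E * X * E * X with hB
  have key : ∀ r : k, r = s ∨ r = t → r ≠ 0 → A = r • B := by
    intro r hr hr0
    have h1 := h r hr
    have h2 : (1 + r • E) * X * (1 + (-r) • E) =
        X + r • (E * X - X * E) - (r * r) • (E * X * E) := by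
      simp only [add_mul, mul_add, one_mul, mul_one, smul_mul_assoc, mul_smul_comm, smul_add,
        smul_sub, smul_smul, neg_smul, smul_neg, mul_neg]
      abel
    rw [h2] at h1
    have h3 : r • (A - r • B) = 0 := by
      have h4 : X * (X + r • (E * X - X * E) - (r * r) • (E * X * E)) -
          (X + r • (E * X - X * E) - (r * r) • (E * X * E)) * X = r • (A - r • B) := by
        rw [hA, hB]
        simp only [add_mul, mul_add, sub_mul, mul_sub, smul_mul_assoc, mul_smul_comm, smul_add,
          smul_sub, smul_smul]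
        abel
      rw [← h4, h1, sub_self]
    exact sub_eq_zero.1 ((smul_eq_zero.1 h3).resolve_left hr0)
  have h1 := key s (Or.inl rfl) hs
  have h2 := key t (Or.inr rfl) ht
  have h3 : B = 0 := by
    have h4 : (s - t) • B = 0 := by rw [sub_smul, ← h1, ← h2, sub_self]
    exact (smul_eq_zero.1 h4).resolve_left (sub_ne_zero.2 hst)
  rw [h3, smul_zero] at h1
  exact ⟨sub_eq_zero.1 h1, sub_eq_zero.1 h3⟩

theorem off_diag {i j : n} (hij : i ≠ j) {X : Matrix n n k}
    (h : X * (single i j 1 * X * single i j 1) = single i j 1 * X * single i j 1 * X) :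
    X j i = 0 := by
  by_contra h0
  have h1 : single i j (1 : k) * X * single i j (1 : k) = X j i • single i j (1 : k) := by
    rw [single_mul_mul_single, one_mul, mul_one, smul_single, smul_eq_mul, mul_one]
  rw [h1, mul_smul_comm, smul_mul_assoc] at h
  have h2 : X * single i j 1 = single i j 1 * X := smul_right_injective _ h0 h
  have h3 : Commute (single i j (1 : k)) X := h2.symm
  exact h0 (row_eq_zero_of_commute_single h3 hij)

theorem diag_eq' {i j : n} {d : n → k}
    (h : diagonal d * (single i j 1 * diagonal d - diagonal d * single i j 1) =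
      (single i j 1 * diagonal d - diagonal d * single i j 1) * diagonal d) : d i = d j := by
  have h1 := congrFun (congrFun h i) j
  rw [diagonal_mul, mul_diagonal, Matrix.sub_apply, mul_diagonal, diagonal_mul,
    single_apply_same] at h1
  have h2 : (d i - d j) * (d i - d j) = 0 := by linear_combination -h1
  exact sub_eq_zero.1 (mul_self_eq_zero.1 h2)

theorem noab_pgl {s : ℕ → k} (hs : Tendsto s atTop (𝓝 0)) (hs0 : ∀ m, s m ≠ 0)
    (hinj : Function.Injective s)
    (V : Set ((Matrix n n k)ˣ ⧸ Subgroup.center (Matrix n n k)ˣ))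
    (hV : V ∈ 𝓝 (1 : (Matrix n n k)ˣ ⧸ Subgroup.center (Matrix n n k)ˣ))
    (T : Subgroup ((Matrix n n k)ˣ ⧸ Subgroup.center (Matrix n n k)ˣ)) (hT : ∃ w ∈ T, w ≠ 1)
    (hTV : ∀ v ∈ V, ∀ t ∈ T, v * t * v⁻¹ ∈ T) : ∃ s ∈ T, ∃ t ∈ T, s * t ≠ t * s := by
  by_contra hcon
  push Not at hcon
  obtain ⟨w, hwT, hw1⟩ := hT
  obtain ⟨X, rfl⟩ := QuotientGroup.mk_surjective w
  refine hw1 ?_
  rw [QuotientGroup.eq_one_iff, Matrix.GeneralLinearGroup.mem_center_iff_val_mem_range_scalar]
  -- main claim
  have key : ∀ i j : n, i ≠ j →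
      X.val * (single i j 1 * X.val - X.val * single i j 1) =
        (single i j 1 * X.val - X.val * single i j 1) * X.val ∧
      X.val * (single i j 1 * X.val * single i j 1) =
        single i j 1 * X.val * single i j 1 * X.val := by
    intro i j hij
    have hn : Nonempty n := ⟨i⟩
    have hE : single i j (1 : k) * single i j (1 : k) = 0 :=
      single_mul_single_of_ne _ _ _ _ hij.symm _
    -- the conjugates
    let y : ℕ → (Matrix n n k)ˣ := fun m => tv i j hij (s m) * X * (tv i j hij (s m))⁻¹
    have hyv : ∀ m, (y m).val = (1 + s m • single i j 1) * X.val * (1 + (-s m) • single i j 1) := by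
      intro m
      have h6 : ∀ r : k, single i j r = r • single i j (1 : k) := by
        intro r
        rw [smul_single, smul_eq_mul, mul_one]
      rw [← h6, ← h6]
      rfl
    have hev : ∀ᶠ m in atTop, ∃ l : k, X.val * (y m).val = l • ((y m).val * X.val) := by
      filter_upwards [ev_tv i j hij hs hV] with m hm
      have h1 := hTV _ hm _ hwT
      exact comm_mk (hcon _ h1 _ hwT)
    -- the entries
    have hyt : Tendsto (fun m => (y m).val) atTop (𝓝 X.val) := by
      have h1 : Continuous fun r : k =>
          (1 + r • single i j (1 : k)) * X.val * (1 + (-r) • single i j 1) := by fun_prop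
      have h2 := (h1.tendsto 0).comp hs
      simp only [zero_smul, add_zero, neg_zero, one_mul, mul_one] at h2
      refine h2.congr fun m => ?_
      rw [hyv]
      rfl
    have hXX : X.val * X.val ≠ 0 := by
      rw [← Units.val_mul]
      exact Units.ne_zero _
    obtain ⟨a, b, hab⟩ : ∃ a b, (X.val * X.val) a b ≠ 0 := by
      by_contra h1
      push Not at h1
      exact hXX (Matrix.ext h1)
    have hent : ∀ a b : n, Continuous fun M : Matrix n n k => M a b := fun a b =>
      (continuous_apply b).comp (continuous_apply a)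
    have ht1 : Tendsto (fun m => (X.val * (y m).val) a b) atTop (𝓝 ((X.val * X.val) a b)) :=
      ((hent a b).tendsto _).comp (hyt.const_mul X.val)
    have ht2 : Tendsto (fun m => ((y m).val * X.val) a b) atTop (𝓝 ((X.val * X.val) a b)) :=
      ((hent a b).tendsto _).comp (hyt.mul_const X.val)
    have ht3 : Tendsto (fun m => (X.val * (y m).val) a b / ((y m).val * X.val) a b) atTop
        (𝓝 1) := by
      have h1 := ht1.div ht2 hab
      rwa [div_self hab] at h1
    have hfin : {c : k | c ^ Fintype.card n = 1}.Finite := by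
      classical
      refine ((Polynomial.nthRoots (Fintype.card n) (1 : k)).toFinset.finite_toSet).subset ?_
      intro c hc
      rw [Finset.mem_coe, Multiset.mem_toFinset, Polynomial.mem_nthRoots Fintype.card_pos]
      exact hc
    have hcl : IsClosed ({c : k | c ^ Fintype.card n = 1} \ {1}) :=
      (hfin.subset Set.diff_subset).isClosed
    have hev2 := ht3.eventually (hcl.isOpen_compl.mem_nhds (fun h1 => h1.2 rfl))
    have hev3 := ht2.eventually_ne hab
    have hev4 : ∀ᶠ m in atTop, X.val * (y m).val = (y m).val * X.val := by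
      filter_upwards [hev, hev2, hev3] with m h1 h2 h3
      obtain ⟨l, hl⟩ := h1
      have h4 : (X.val * (y m).val) a b / ((y m).val * X.val) a b = l := by
        rw [hl, Matrix.smul_apply, smul_eq_mul, mul_div_assoc, div_self h3, mul_one]
      rw [h4] at h2
      have h5 : l ^ Fintype.card n = 1 := by
        have h6 := congrArg det hl
        rw [det_smul, det_mul, det_mul, mul_comm (det X.val)] at h6
        have h7 : det (y m).val * det X.val ≠ 0 := by
          rw [← det_mul, ← Units.val_mul]
          exact (Matrix.isUnit_iff_isUnit_det _).1 (Units.isUnit _) |>.ne_zero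
        exact mul_right_cancel₀ h7 (by rw [one_mul]; exact h6.symm)
      have h6 : l = 1 := by
        by_contra h7
        exact h2 ⟨h5, h7⟩
      rw [hl, h6, one_smul]
    obtain ⟨M, hM⟩ := eventually_atTop.1 hev4
    refine two_conj hE (hinj.ne (show M ≠ M + 1 by omega)) (hs0 M) (hs0 (M + 1)) ?_
    rintro r (rfl | rfl)
    · rw [← hyv]
      exact hM M le_rfl
    · rw [← hyv]
      exact hM (M + 1) (Nat.le_succ M)
  have hoff : ∀ i j : n, i ≠ j → X.val j i = 0 := fun i j hij => off_diag hij (key i j hij).2
  have hX : X.val = diagonal fun i => X.val i i := by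
    ext a b
    by_cases hab : a = b
    · subst hab
      rw [diagonal_apply_eq]
    · rw [diagonal_apply_ne _ hab]
      exact hoff b a (Ne.symm hab)
  have hdiag : ∀ i j : n, i ≠ j → X.val i i = X.val j j := by
    intro i j hij
    have h1 := (key i j hij).1
    rw [hX] at h1
    exact diag_eq' (d := fun i => X.val i i) h1
  rcases isEmpty_or_nonempty n with hn | ⟨⟨i⟩⟩
  · exact ⟨0, Subsingleton.elim _ _⟩
  · refine ⟨X.val i i, ?_⟩
    rw [hX, Matrix.scalar_apply]
    congr 1
    funext j
    by_cases hij : i = j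
    · rw [hij]; simp
    · simp [hdiag i j hij]

/-- **The group inputs of theorem RES for `PGL_n(k)`.** -/
theorem grpH_pgl (k : Type) [NormedField k] [IsUltrametricDist k] [ProperSpace k] [CharZero k]
    (n : Type) [Fintype n] [DecidableEq n] :
    ∃ (p q : ℕ) (K : ℕ → Subgroup ((Matrix n n k)ˣ ⧸ Subgroup.center (Matrix n n k)ˣ)),
      p.Prime ∧ ‖(p : k)‖ < 1 ∧
      (∃ a, ∀ m, K m = (H575.Kc p k n (a + m)).map (QuotientGroup.mk' _)) ∧ GrpH p q K := by
  obtain ⟨p, K, hp, hp1, hK, hc, hop, hcp, hb⟩ :=
    H575.chain_quot k n (Subgroup.center (Matrix n n k)ˣ)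
  have hp0 : (p : k) ≠ 0 := by exact_mod_cast hp.ne_zero
  have hs : Tendsto (fun m : ℕ => (p : k) ^ (m + 1)) atTop (𝓝 0) :=
    (tendsto_pow_atTop_nhds_zero_of_norm_lt_one hp1).comp (tendsto_add_atTop_nat 1)
  have hs0 : ∀ m : ℕ, (p : k) ^ (m + 1) ≠ 0 := fun m => pow_ne_zero _ hp0
  have hinj : Function.Injective fun m : ℕ => (p : k) ^ (m + 1) := by
    intro a b hab
    have h1 : ‖(p : k)‖ ^ (a + 1) = ‖(p : k)‖ ^ (b + 1) := by
      rw [← norm_pow, ← norm_pow]
      exact congrArg norm hab
    have h2 := pow_right_injective₀ (norm_pos_iff.2 hp0) hp1.ne h1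
    simpa using h2
  haveI : T2Space ((Matrix n n k)ˣ ⧸ Subgroup.center (Matrix n n k)ˣ) := by
    haveI : IsClosed ((Subgroup.center (Matrix n n k)ˣ : Subgroup _) : Set (Matrix n n k)ˣ) := by
      have h1 : ((Subgroup.center (Matrix n n k)ˣ : Subgroup _) : Set (Matrix n n k)ˣ) =
          ⋂ h : (Matrix n n k)ˣ, {g | h * g = g * h} := by
        ext g
        rw [SetLike.mem_coe, Subgroup.mem_center_iff, Set.mem_iInter]
        rfl
      rw [h1]
      exact isClosed_iInter fun h => isClosed_eq (continuous_const.mul continuous_id)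
        (continuous_id.mul continuous_const)
    infer_instance
  obtain ⟨a, q, h⟩ := exists_grpH hc hop hcp hb (fun V hV g hg => cent_pgl hs hs0 V hV g hg)
    (fun V hV T h1 h2 => noab_pgl hs hs0 hinj V hV T h1 h2)
  exact ⟨p, q, fun m => K (a + m), hp, hp1, ⟨a, fun m => hK (a + m)⟩, h⟩

end Vale.Agent.P092.H473.Res
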