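import Vale.Agent.P092.H515.Start

/-!
P092 (helper473), Team N, block [N-GAPB] (3a): the residual chain. The chain argument of
`H515.Start` for the limits along a family `z` (powers of the wall element) which commutes with
the chain: the element `h` of the chain is fixed first, then `z k → ∞`. The gap `j₀` stays larger
than a level `τ k` which tends to infinity along `z`.
-/

set_option linter.all false

open Filter Topology

namespace Vale.Agent.P092.H473.NC

open Vale.Agent.P092.H200 Vale.Agent.P092.H538 Vale.Agent.P092.H553 Vale.Agent.P092.H761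
open Vale.Agent.P092.H515

section chain

variable {Γ 𝔾 J : Type} [Group Γ] [DecidableEq Γ] [Group 𝔾] [Fintype J] [DecidableEq J] {t : ℝ}
  {mass : 𝔾 → (Γ → ℝ) → ℝ} {Cpt : Set 𝔾 → Prop} {Ping : (p : ℕ) → (Fin p → 𝔾) → Prop}
  {r : ℕ} {gap : J → Γ → ℝ} {cl : J → Fin r} {m : ℕ} {b : Fin m → ℕ → 𝔾} {𝒦 : Fin m → Set 𝔾}
  {α : Type}

/-- After `j` steps of the residual chain some set of at least `n` classes of gaps is
simultaneously unbounded, with mass bounded below, in the limit along `z`, where the gap `j₀` is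
larger than the level `τ k`. -/
def TZ (mass : 𝔾 → (Γ → ℝ) → ℝ) (gap : J → Γ → ℝ) (cl : J → Fin r) (b : Fin m → ℕ → 𝔾)
    (z : α → 𝔾) (𝒰 : Ultrafilter α) (j₀ : J) (τ : α → ℝ) (j n : ℕ) : Prop :=
  ∃ (c : ℝ) (Θ : Finset (Fin r)), 0 < c ∧ n ≤ Θ.card ∧ ∀ R : ℝ, ∃ h, HS b j h ∧
    ∀ᶠ k in (𝒰 : Filter α), c ≤ mass (z k * h) (ind fun g => Θ ⊆ big gap cl R g ∧ τ k ≤ gap j₀ g)

/-- the cut-off of one gap -/
noncomputable def ct (gap : J → Γ → ℝ) (j₀ : J) (a : ℝ) (g : Γ) : ℝ := clamp (gap j₀ g / a - 1)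

theorem tz_step (h : SharpData t mass Cpt Ping) (hg : Gaps gap cl)
    (hgeo : ∀ θ : Finset J, θ.Nonempty → (∀ i ∈ θ, ∀ j, cl i = cl j → j ∈ θ) → Geo gap θ)
    (hch : GChain Cpt Ping m b 𝒦) {z : α → 𝔾} {𝒰 : Ultrafilter α}
    (hzb : ∀ k i N, z k * b i N = b i N * z k) (hzK : ∀ k i, ∀ κ ∈ 𝒦 i, z k * κ = κ * z k)
    {j₀ : J} {τ : α → ℝ} (hτ : Tendsto τ 𝒰 atTop) {j n : ℕ} (hj : j < m)
    (hT : TZ mass gap cl b z 𝒰 j₀ τ j n) :
    TZ mass gap cl b z 𝒰 j₀ (fun k => τ k / 4) (j + 1) (n + 1) := by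
  classical
  by_contra hcon
  obtain ⟨c0, Θ, hc0, hΘcard, hTm⟩ := hT
  choose Rc hRc using hg.comp
  obtain ⟨ρ, hρ⟩ : ∃ ρ : ℕ → ℝ, ∀ k, ρ k = Rc (2 * ((k : ℝ) + 1)) + 1 := ⟨_, fun _ => rfl⟩
  choose w0 hwH0 hwm0 using fun k : ℕ => hTm (ρ k)
  obtain ⟨U, hU⟩ : ∃ U : Ultrafilter ℕ, (U : Filter ℕ) ≤ atTop :=
    ⟨hyperfilter ℕ, Nat.hyperfilter_le_atTop⟩
  obtain ⟨j0, hj0⟩ : ∃ j0 : Fin m, j0 = ⟨j, hj⟩ := ⟨_, rfl⟩
  obtain ⟨θ, hθ⟩ : ∃ θ : Finset J, θ = Finset.univ.filter fun j => cl j ∈ Θ := ⟨_, rfl⟩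
  have hmemθ : ∀ j, j ∈ θ ↔ cl j ∈ Θ := fun j => by rw [hθ, Finset.mem_filter]; simp
  have hlarge : ∀ (k : ℕ) (g : Γ), Θ ⊆ big gap cl (ρ k) g →
      ∀ j ∈ θ, 2 * ((k : ℝ) + 1) ≤ gap j g := by
    intro k g hsub j hj
    obtain ⟨i, hi1, hi2⟩ := mem_big.mp (hsub ((hmemθ j).mp hj))
    by_contra hc
    push Not at hc
    have h1 := hRc (2 * ((k : ℝ) + 1)) j i hi1.symm g hc.le
    rw [hρ] at hi2
    linarith
  have hclass : ∀ c ∈ Θ, ∃ j, cl j = c := by
    intro c hc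
    by_contra hne
    obtain ⟨i, h1⟩ := (hwm0 0).exists
    have h2 : (ind fun g => Θ ⊆ big gap cl (ρ 0) g ∧ τ i ≤ gap j₀ g) = fun _ : Γ => (0 : ℝ) := by
      funext g
      refine ind_neg (P := fun g => Θ ⊆ big gap cl (ρ 0) g ∧ τ i ≤ gap j₀ g) fun hsub => hne ?_
      obtain ⟨j, hj, _⟩ := mem_big.mp (hsub.1 hc)
      exact ⟨j, hj⟩
    rw [h2, h.zero] at h1
    linarith
  have hθgeo : Geo gap θ := by
    rcases θ.eq_empty_or_nonempty with h1 | h1
    · rw [h1]; exact geo_empty hg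
    · refine hgeo θ h1 fun i hi j hij => ?_
      rw [hmemθ] at hi ⊢
      rwa [← hij]
  -- a uniform bound for the other classes
  obtain ⟨δ, hδ0, hδ⟩ : ∃ δ : ℝ, 0 < δ ∧ (r : ℝ) * (2 * δ) ≤ c0 / 4 := by
    refine ⟨c0 / (8 * ((r : ℝ) + 1)), by positivity, ?_⟩
    rw [mul_div_assoc', mul_div_assoc', div_le_div_iff₀ (by positivity) (by positivity)]
    nlinarith
  obtain ⟨F0, C1, hC1, hF0⟩ := h.unif (𝒦 j0) (hch.cpt j0) δ hδ0
  obtain ⟨δ1, hδ1, hδ10⟩ : ∃ δ1 : ℝ, δ1 = δ / (C1 + 1) ∧ 0 < δ1 := ⟨_, rfl, by positivity⟩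
  have hR1 : ∀ x : Fin r, ∃ R : ℝ, x ∉ Θ → ∀ h, HS b (j + 1) h →
      ∀ᶠ k in (𝒰 : Filter α),
        mass (z k * h) (ind fun g => insert x Θ ⊆ big gap cl R g ∧ τ k / 4 ≤ gap j₀ g) ≤ δ1 := by
    intro x
    by_contra hx
    push Not at hx
    refine hcon ⟨δ1, insert x Θ, hδ10, ?_, fun R => ?_⟩
    · rw [Finset.card_insert_of_notMem (hx 0).1]; omega
    · obtain ⟨_, h', h1, h2⟩ := hx R
      refine ⟨h', h1, ?_⟩
      filter_upwards [h2] with k hk
      exact hk.le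
  choose Rx hRx using hR1
  obtain ⟨R', hR'⟩ : ∃ R' : ℝ, ∀ x, Rx x ≤ R' := by
    refine ⟨∑ x, |Rx x|, fun x => (le_abs_self _).trans ?_⟩
    exact Finset.single_le_sum (f := fun x => |Rx x|) (fun x _ => abs_nonneg _) (Finset.mem_univ x)
  choose Cq hCq using hg.quasi
  obtain ⟨CF, hCF⟩ : ∃ CF : ℝ, ∀ a ∈ F0, ∀ b ∈ F0, Cq a b ≤ CF := by
    refine ⟨∑ a ∈ F0, ∑ b ∈ F0, |Cq a b|, fun a ha b hb => (le_abs_self _).trans ?_⟩
    refine le_trans ?_ (Finset.single_le_sum (f := fun a => ∑ b ∈ F0, |Cq a b|)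
      (fun a _ => Finset.sum_nonneg fun b _ => abs_nonneg _) ha)
    exact Finset.single_le_sum (f := fun b => |Cq a b|) (fun b _ => abs_nonneg _) hb
  obtain ⟨R, hR⟩ : ∃ R : ℝ, R = R' + CF := ⟨_, rfl⟩
  -- the bad set
  obtain ⟨bad, hbad⟩ : ∃ bad : ℝ → Γ → Prop, ∀ T g, bad T g ↔
      ∃ x, x ∉ Θ ∧ (insert x Θ ⊆ big gap cl R g ∧ T / 2 ≤ gap j₀ g) := ⟨_, fun _ _ => Iff.rfl⟩
  have hbadm : ∀ (T : ℝ) (hT : 4 * CF ≤ T) (h' : 𝔾),
      (∀ x, x ∉ Θ → mass h' (ind fun g => insert x Θ ⊆ big gap cl (Rx x) g ∧ T / 4 ≤ gap j₀ g) ≤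
        δ1) → ∀ κ ∈ 𝒦 j0, ∀ κ' ∈ 𝒦 j0,
      mass (κ * h' * κ') (ind (bad T)) ≤ c0 / 4 := by
    intro T hT h' hh' κ hκ κ' hκ'
    refine (h.union (κ * h' * κ') (Finset.univ.filter fun x => x ∉ Θ) (bad T)
      (fun x g => insert x Θ ⊆ big gap cl R g ∧ T / 2 ≤ gap j₀ g) fun g hg' => ?_).trans ?_
    · obtain ⟨x, hx1, hx2⟩ := (hbad T g).mp hg'
      exact ⟨x, by simp [hx1], hx2⟩
    · have h1 : ∀ x ∈ (Finset.univ.filter fun x => x ∉ Θ),
          mass (κ * h' * κ') (ind fun g => insert x Θ ⊆ big gap cl R g ∧ T / 2 ≤ gap j₀ g) ≤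
            2 * δ := by
        intro x hx
        rw [Finset.mem_filter] at hx
        refine (hF0 κ hκ κ' hκ' h' _).trans ?_
        have h2 : mass h' (ind fun g => ∃ a ∈ F0, ∃ b ∈ F0,
            insert x Θ ⊆ big gap cl R (a * g * b) ∧ T / 2 ≤ gap j₀ (a * g * b)) ≤
            mass h' (ind fun g => insert x Θ ⊆ big gap cl (Rx x) g ∧ T / 4 ≤ gap j₀ g) := by
          refine h.ind_mono h' fun g hg' => ?_
          obtain ⟨a, ha, b', hb', hab, hab2⟩ := hg'
          have h4 := hCF a ha b' hb'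
          refine ⟨fun c hc => ?_, ?_⟩
          · obtain ⟨i, hi1, hi2⟩ := mem_big.mp (hab hc)
            refine mem_big.mpr ⟨i, hi1, ?_⟩
            have h3 := (abs_le.mp (hCq a b' i g)).2
            have h5 := hR' x
            linarith
          · have h3 := (abs_le.mp (hCq a b' j₀ g)).2
            linarith
        have h3 := h2.trans (hh' x hx.2)
        have h4 := mul_le_mul_of_nonneg_left h3 hC1
        have h5 : C1 * δ1 ≤ δ := by
          rw [hδ1, mul_div_assoc', div_le_iff₀ (by positivity)]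
          nlinarith
        linarith
      refine (Finset.sum_le_sum h1).trans ?_
      rw [Finset.sum_const, nsmul_eq_mul]
      refine le_trans ?_ hδ
      have : (((Finset.univ : Finset (Fin r)).filter fun x => x ∉ Θ).card : ℝ) ≤ r := by
        have := Finset.card_le_univ ((Finset.univ : Finset (Fin r)).filter fun x => x ∉ Θ)
        rw [Fintype.card_fin] at this
        exact_mod_cast this
      gcongr
  obtain ⟨c, hcpos, hfam⟩ := fam_of_geo hg hθgeo hU R
  have hk1 : ∀ k : ℕ, (0 : ℝ) < (k : ℝ) + 1 := fun k => by positivity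
  -- the pairing lemma for `p` elements
  obtain ⟨A, hA⟩ := h.pairF
  obtain ⟨c2, hc2, hc20⟩ : ∃ c2 : ℝ, c2 = c * (c0 / 2) ∧ 0 < c2 := ⟨_, rfl, by positivity⟩
  have hmain : ∀ p : ℕ, (p : ℝ) * c2 ≤ A * Real.sqrt p := by
    intro p
    obtain ⟨N, κ, κ', hκ, hκ', hping⟩ := hch.ping j0 p
    -- the elements `z (i k) * w0 k`
    have hchoice : ∀ k : ℕ, ∃ i : α,
        c0 ≤ mass (z i * w0 k) (ind fun g => Θ ⊆ big gap cl (ρ k) g ∧ τ i ≤ gap j₀ g) ∧
        (∀ x, x ∉ Θ → mass (z i * (w0 k * b j0 N))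
          (ind fun g => insert x Θ ⊆ big gap cl (Rx x) g ∧ τ i / 4 ≤ gap j₀ g) ≤ δ1) ∧
        2 * ((k : ℝ) + 1) ≤ τ i ∧ 4 * CF ≤ τ i := by
      intro k
      have h1 : ∀ᶠ i in (𝒰 : Filter α), ∀ x, x ∉ Θ → mass (z i * (w0 k * b j0 N))
          (ind fun g => insert x Θ ⊆ big gap cl (Rx x) g ∧ τ i / 4 ≤ gap j₀ g) ≤ δ1 := by
        rw [Filter.eventually_all]
        intro x
        by_cases hx : x ∈ Θ
        · exact Filter.Eventually.of_forall fun i h => absurd hx h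
        · have h2 : HS b (j + 1) (w0 k * b j0 N) := by
            rw [hj0]; exact HS.step hj N (hwH0 k)
          filter_upwards [hRx x hx _ h2] with i hi _
          exact hi
      obtain ⟨i, ⟨⟨h3, h4⟩, h5⟩, h6⟩ := (((hwm0 k).and h1).and
        (hτ.eventually_ge_atTop (2 * ((k : ℝ) + 1)))).and (hτ.eventually_ge_atTop (4 * CF)) |>.exists
      exact ⟨i, h3, h4, h5, h6⟩
    choose ik hik1 hik2 hik3 hik4 using hchoice
    obtain ⟨a, ha⟩ : ∃ a : ℕ → ℝ, ∀ k, a k = τ (ik k) / 2 := ⟨_, fun _ => rfl⟩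
    have hak : ∀ k : ℕ, (k : ℝ) + 1 ≤ a k := fun k => by rw [ha]; linarith [hik3 k]
    have ha0 : ∀ k, 0 < a k := fun k => (hk1 k).trans_le (hak k)
    obtain ⟨χ, hχ⟩ : ∃ χ : ℕ → Γ → ℝ, ∀ k g,
        χ k g = (up gap θ ((k : ℝ) + 1) g) ^ 2 * ct gap j₀ (a k) g := ⟨_, fun _ _ => rfl⟩
    have hct01 : ∀ k g, 0 ≤ ct gap j₀ (a k) g ∧ ct gap j₀ (a k) g ≤ 1 := fun k g =>
      ⟨clamp_nonneg _, clamp_le_one _⟩
    have hup01 : ∀ k g, 0 ≤ (up gap θ ((k : ℝ) + 1) g) ^ 2 ∧ (up gap θ ((k : ℝ) + 1) g) ^ 2 ≤ 1 := by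
      intro k g
      have := up_mem gap θ ((k : ℝ) + 1) g
      exact ⟨sq_nonneg _, pow_le_one₀ this.1 this.2⟩
    have hχ01 : ∀ k g, 0 ≤ χ k g ∧ χ k g ≤ 1 := by
      intro k g
      rw [hχ]
      exact ⟨mul_nonneg (hup01 k g).1 (hct01 k g).1,
        mul_le_one₀ (hup01 k g).2 (hct01 k g).1 (hct01 k g).2⟩
    have hχup : ∀ k g, χ k g ≤ (up gap θ ((k : ℝ) + 1) g) ^ 2 := by
      intro k g
      rw [hχ]
      exact mul_le_of_le_one_right (hup01 k g).1 (hct01 k g).2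
    have hχabs : ∀ k g, |χ k g| ≤ 1 := fun k g => by
      rw [abs_of_nonneg (hχ01 k g).1]; exact (hχ01 k g).2
    have hχr : ∀ u : Γ, Usm U (fun k g => χ k (g * u) - χ k g) := by
      intro u δ' hδ'
      obtain ⟨C, hC0, hC⟩ := hg.right u
      filter_upwards [tendsto_div_nat ((Fintype.card J : ℝ) * C) hU (show 0 < δ' / 4 by positivity),
        tendsto_div_nat C hU (half_pos hδ')] with k hk hk' g
      have h1 := up_lip (θ := θ) (h := g * u) (g := g) (hk1 k) hC0 fun j => hC j g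
      rw [mul_div_assoc'] at h1
      have h2 := up_mem gap θ ((k : ℝ) + 1) g
      have h3 := up_mem gap θ ((k : ℝ) + 1) (g * u)
      have h5 : |ct gap j₀ (a k) (g * u) - ct gap j₀ (a k) g| ≤ δ' / 2 := by
        have h6 : |ct gap j₀ (a k) (g * u) - ct gap j₀ (a k) g| ≤
            |(gap j₀ (g * u) / a k - 1) - (gap j₀ g / a k - 1)| := abs_clamp_sub_le _ _
        have h7 : (gap j₀ (g * u) / a k - 1) - (gap j₀ g / a k - 1) =
            (gap j₀ (g * u) - gap j₀ g) / a k := by ring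
        rw [h7, abs_div, abs_of_pos (ha0 k)] at h6
        refine h6.trans (le_trans ?_ hk')
        exact div_le_div₀ hC0 (hC j₀ g) (hk1 k) (hak k)
      rw [hχ, hχ]
      have e : up gap θ ((k : ℝ) + 1) (g * u) ^ 2 * ct gap j₀ (a k) (g * u) -
          up gap θ ((k : ℝ) + 1) g ^ 2 * ct gap j₀ (a k) g =
          ((up gap θ ((k : ℝ) + 1) (g * u) - up gap θ ((k : ℝ) + 1) g) *
          (up gap θ ((k : ℝ) + 1) (g * u) + up gap θ ((k : ℝ) + 1) g)) * ct gap j₀ (a k) (g * u) +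
          up gap θ ((k : ℝ) + 1) g ^ 2 * (ct gap j₀ (a k) (g * u) - ct gap j₀ (a k) g) := by ring
      rw [e]
      refine (abs_add_le _ _).trans ?_
      rw [abs_mul, abs_mul, abs_mul]
      have h4 : |up gap θ ((k : ℝ) + 1) (g * u) + up gap θ ((k : ℝ) + 1) g| ≤ 2 := by
        rw [abs_of_nonneg (by linarith)]; linarith
      have h8 : |ct gap j₀ (a k) (g * u)| ≤ 1 := by
        rw [abs_of_nonneg (hct01 k (g * u)).1]; exact (hct01 k (g * u)).2
      have h9 : |up gap θ ((k : ℝ) + 1) g ^ 2| ≤ 1 := by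
        rw [abs_of_nonneg (hup01 k g).1]; exact (hup01 k g).2
      have h10 : |up gap θ ((k : ℝ) + 1) (g * u) - up gap θ ((k : ℝ) + 1) g| *
          |up gap θ ((k : ℝ) + 1) (g * u) + up gap θ ((k : ℝ) + 1) g| *
          |ct gap j₀ (a k) (g * u)| ≤ (δ' / 4) * 2 * 1 :=
        mul_le_mul (mul_le_mul (h1.trans hk) h4 (abs_nonneg _) (by positivity)) h8 (abs_nonneg _)
          (by positivity)
      have h11 : |up gap θ ((k : ℝ) + 1) g ^ 2| * |ct gap j₀ (a k) (g * u) - ct gap j₀ (a k) g| ≤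
          1 * (δ' / 2) := mul_le_mul h9 h5 (abs_nonneg _) zero_le_one
      linarith
    obtain ⟨w, hw⟩ : ∃ w : ℕ → 𝔾, ∀ k, w k = z (ik k) * w0 k := ⟨_, fun _ => rfl⟩
    have hwcK : ∀ k, ∀ κ ∈ 𝒦 j0, w k * κ = κ * w k := by
      intro k κ hκ
      rw [hw, mul_assoc, (hwH0 k).comm_K hch j0 (by rw [hj0]) κ hκ, ← mul_assoc,
        hzK (ik k) j0 κ hκ, mul_assoc]
    have hwcb : ∀ k, w k * b j0 N = b j0 N * w k := by
      intro k
      rw [hw, mul_assoc, (hwH0 k).comm_b hch j0 (by rw [hj0]) N, ← mul_assoc,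
        hzb (ik k) j0 N, mul_assoc]
    have hwu : ∀ k l, w k * (κ l * b j0 N * κ' l) = (κ l * b j0 N * κ' l) * w k := by
      intro k l
      have e1 := hwcK k (κ l) (hκ l)
      have e2 := hwcK k (κ' l) (hκ' l)
      have e3 := hwcb k
      calc w k * (κ l * b j0 N * κ' l) = (w k * κ l) * b j0 N * κ' l := by group
        _ = κ l * (w k * b j0 N) * κ' l := by rw [e1]; group
        _ = κ l * b j0 N * (w k * κ' l) := by rw [e3]; group
        _ = _ := by rw [e2]; group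
    have hwm : ∀ k, c0 ≤ mass (w k)
        (ind fun g => Θ ⊆ big gap cl (ρ k) g ∧ τ (ik k) ≤ gap j₀ g) := fun k => by
      rw [hw]; exact hik1 k
    refine hA p _ hping U w hwu c2 hc20 fun S ε' hε' => ?_
    obtain ⟨B, F, H, hBFH, hlow⟩ := hfam S ε' hε'
    refine ⟨B, F, H, hBFH, fun l => ?_⟩
    have hinv := h.inv U w (κ l * b j0 N * κ' l) (fun k => hwu k l) χ hχ01 hχr
    have hinv' : ∀ᶠ k in (U : Filter ℕ),
        |mass (w k * (κ l * b j0 N * κ' l)) (χ k) - mass (w k) (χ k)| < c0 / 4 := by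
      have := Metric.tendsto_nhds.mp hinv (c0 / 4) (by positivity)
      filter_upwards [this] with k hk
      rwa [Real.dist_eq, sub_zero] at hk
    filter_upwards [hinv', hlow, eventually_nat_ge R hU] with k hk3 hk4 hk5
    obtain ⟨x, hx⟩ : ∃ x : 𝔾, x = w k * (κ l * b j0 N * κ' l) := ⟨_, rfl⟩
    rw [← hx] at hk3 ⊢
    have h1 : c0 ≤ mass (w k) (χ k) := by
      refine (hwm k).trans (h.mono (w k) _ _ 1 (fun g => abs_ind_le _ g) (hχabs k) fun g => ?_)
      by_cases hsub : Θ ⊆ big gap cl (ρ k) g ∧ τ (ik k) ≤ gap j₀ g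
      · have h5 : ct gap j₀ (a k) g = 1 := by
          refine clamp_of_one_le ?_
          rw [le_sub_iff_add_le, le_div_iff₀ (ha0 k), ha]
          linarith [hsub.2]
        rw [ind_pos (P := fun g => Θ ⊆ big gap cl (ρ k) g ∧ τ (ik k) ≤ gap j₀ g) hsub, hχ,
          up_eq_one (hk1 k) (hlarge k g hsub.1), one_pow, h5, one_mul]
      · rw [ind_neg (P := fun g => Θ ⊆ big gap cl (ρ k) g ∧ τ (ik k) ≤ gap j₀ g) hsub]
        exact (hχ01 k g).1
    have h2 : 3 / 4 * c0 ≤ mass x (χ k) := by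
      have := (abs_lt.mp hk3).1
      linarith
    have h3 : mass x (ind (bad (τ (ik k)))) ≤ c0 / 4 := by
      have e : x = κ l * (w k * b j0 N) * κ' l := by
        have e1 := hwcK k (κ l) (hκ l)
        rw [hx]
        calc w k * (κ l * b j0 N * κ' l) = (w k * κ l) * b j0 N * κ' l := by group
          _ = _ := by rw [e1]; group
      rw [e]
      refine hbadm _ (hik4 k) _ (fun y hy => ?_) (κ l) (hκ l) (κ' l) (hκ' l)
      rw [hw, mul_assoc]
      exact hik2 k y hy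
    obtain ⟨FH, hFH⟩ : ∃ FH : Γ → ℝ, ∀ g, FH g = ∑ b ∈ B, F k b g * H k b g := ⟨_, fun _ => rfl⟩
    have hFH0 : ∀ g, 0 ≤ FH g := fun g => by
      rw [hFH]
      exact Finset.sum_nonneg fun b _ => mul_nonneg (hBFH.nonnegF _ _ _) (hBFH.nonnegH _ _ _)
    have hFH1 : ∀ g, FH g ≤ 1 := fun g => by
      rw [hFH]
      have h5 : ∀ b ∈ B, F k b g * H k b g ≤ 1 / 2 * F k b g ^ 2 + 1 / 2 * H k b g ^ 2 := by
        intro b _
        nlinarith [sq_nonneg (F k b g - H k b g)]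
      refine (Finset.sum_le_sum h5).trans ?_
      rw [Finset.sum_add_distrib, ← Finset.mul_sum, ← Finset.mul_sum]
      have := hBFH.sumF k g
      have := hBFH.sumH k g
      linarith
    have hmono : c * mass x (χ k) ≤ mass x FH + c * mass x (ind (bad (τ (ik k)))) := by
      have hb1 : ∀ g, |c * χ k g| ≤ 1 + c := fun g => by
        rw [abs_mul, abs_of_pos hcpos]
        have := hχabs k g
        nlinarith
      have hb2 : ∀ g, |FH g| ≤ 1 + c := fun g => by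
        rw [abs_of_nonneg (hFH0 g)]
        have := hFH1 g
        linarith
      have hb3 : ∀ g, |c * ind (bad (τ (ik k))) g| ≤ 1 + c := fun g => by
        rw [abs_mul, abs_of_pos hcpos]
        have := abs_ind_le (bad (τ (ik k))) g
        nlinarith
      rw [← h.smul _ _ 1 c (hχabs k), ← h.smul _ _ 1 c (fun g => abs_ind_le _ g),
        ← h.add _ _ _ (1 + c) hb2 hb3]
      refine h.mono _ _ _ (2 * (1 + c)) (fun g => ?_) (fun g => ?_) (fun g => ?_)
      · have := hb1 g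
        linarith [abs_nonneg (c * χ k g)]
      · refine (abs_add_le _ _).trans ?_
        have := hb2 g
        have := hb3 g
        linarith
      · by_cases hu : χ k g = 0
        · rw [hu, mul_zero]
          exact add_nonneg (hFH0 g) (mul_nonneg hcpos.le (ind_nonneg _ g))
        · have hu1 : up gap θ ((k : ℝ) + 1) g ≠ 0 := by
            intro h7
            apply hu
            rw [hχ, h7, zero_pow two_ne_zero, zero_mul]
          have hu2 : ct gap j₀ (a k) g ≠ 0 := by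
            intro h7
            apply hu
            rw [hχ, h7, mul_zero]
          have hup := up_ne (hk1 k) hu1
          have hcut : τ (ik k) / 2 ≤ gap j₀ g := by
            by_contra h7
            push Not at h7
            apply hu2
            refine clamp_of_nonpos ?_
            rw [sub_nonpos, div_le_one (ha0 k), ha]
            exact h7.le
          by_cases hb : ∀ j, j ∉ θ → gap j g ≤ R
          · have h6 := hk4 g hb
            rw [← hFH] at h6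
            have h8 := mul_le_mul_of_nonneg_left (hχup k g) hcpos.le
            have := mul_nonneg hcpos.le (ind_nonneg (bad (τ (ik k))) g)
            linarith
          · push Not at hb
            obtain ⟨i, hi1, hi2⟩ := hb
            have hbg : bad (τ (ik k)) g := by
              rw [hbad]
              refine ⟨cl i, fun h => hi1 ((hmemθ i).mpr h), ?_, hcut⟩
              intro y hy
              rw [Finset.mem_insert] at hy
              rcases hy with rfl | hy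
              · exact mem_big.mpr ⟨i, rfl, hi2.le⟩
              · obtain ⟨i', hi'⟩ := hclass y hy
                exact mem_big.mpr ⟨i', hi',
                  hk5.trans (hup i' ((hmemθ i').mpr (by rw [hi']; exact hy)))⟩
            rw [ind_pos (P := bad (τ (ik k))) hbg]
            have := (hχ01 k g).2
            have := hFH0 g
            nlinarith
    have e : (fun g => ∑ b ∈ B, F k b g * H k b g) = FH := by funext g; rw [hFH]
    rw [e, hc2]
    nlinarith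
  -- `p` large
  obtain ⟨n, hn⟩ := exists_nat_gt (|A| / c2)
  have h1 := hmain ((n + 1) ^ 2)
  have h2 : Real.sqrt (((n + 1) ^ 2 : ℕ) : ℝ) = (n : ℝ) + 1 := by
    push_cast
    exact Real.sqrt_sq (by positivity)
  rw [h2] at h1
  push_cast at h1
  have h3 : |A| < n * c2 := by rwa [div_lt_iff₀ hc20] at hn
  have h4 : A ≤ |A| := le_abs_self A
  have h5 : (0 : ℝ) ≤ n := by positivity
  nlinarith [mul_pos (show (0 : ℝ) < (n : ℝ) + 1 by positivity) hc20]

/-- After all the steps of the residual chain. -/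
theorem tz_le (h : SharpData t mass Cpt Ping) (hg : Gaps gap cl)
    (hgeo : ∀ θ : Finset J, θ.Nonempty → (∀ i ∈ θ, ∀ j, cl i = cl j → j ∈ θ) → Geo gap θ)
    (hch : GChain Cpt Ping m b 𝒦) {z : α → 𝔾} {𝒰 : Ultrafilter α}
    (hzb : ∀ k i N, z k * b i N = b i N * z k) (hzK : ∀ k i, ∀ κ ∈ 𝒦 i, z k * κ = κ * z k)
    {j₀ : J} {τ : α → ℝ} (hτ : Tendsto τ 𝒰 atTop) {n : ℕ}
    (hT : TZ mass gap cl b z 𝒰 j₀ τ 0 n) :
    ∀ i, i ≤ m → TZ mass gap cl b z 𝒰 j₀ (fun k => τ k / 4 ^ i) i (n + i) := by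
  intro i
  induction i with
  | zero =>
    intro _
    have e : (fun k => τ k / 4 ^ 0) = τ := by funext k; rw [pow_zero, div_one]
    rw [e]
    exact hT
  | succ i ih =>
    intro hi
    have h1 := ih (by omega)
    have h2 : Tendsto (fun k => τ k / 4 ^ i) 𝒰 atTop := hτ.atTop_div_const (by positivity)
    have h3 := tz_step h hg hgeo hch hzb hzK h2 (show i < m by omega) h1
    have e : (fun k => τ k / 4 ^ i / 4) = fun k => τ k / 4 ^ (i + 1) := by
      funext k; rw [pow_succ, div_div]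
    rw [e] at h3
    exact h3

/-- **The residual chain.** If the gap `j₀` is larger than `τ k` along `z k` with mass bounded
below, `τ k → ∞`, and the chain (which commutes with `z`) has length at least `r - 1`, then for
every `R` there is a fixed element `x` of the chain such that all the classes are larger than `R`
(and `j₀` is larger than `τ k / 4 ^ m`) along `z k * x`, with mass bounded below by a constant which
does not depend on `R`. -/
theorem tz_all (h : SharpData t mass Cpt Ping) (hg : Gaps gap cl)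
    (hgeo : ∀ θ : Finset J, θ.Nonempty → (∀ i ∈ θ, ∀ j, cl i = cl j → j ∈ θ) → Geo gap θ)
    (hch : GChain Cpt Ping m b 𝒦) {z : α → 𝔾} {𝒰 : Ultrafilter α}
    (hzb : ∀ k i N, z k * b i N = b i N * z k) (hzK : ∀ k i, ∀ κ ∈ 𝒦 i, z k * κ = κ * z k)
    (hrm : r ≤ m + 1) {j₀ : J} {τ : α → ℝ} (hτ : Tendsto τ 𝒰 atTop) {c0 : ℝ} (hc0 : 0 < c0)
    (hstart : ∀ᶠ k in (𝒰 : Filter α), c0 ≤ mass (z k) (ind fun g => τ k ≤ gap j₀ g)) :
    ∃ c : ℝ, 0 < c ∧ ∀ R : ℝ, ∃ x, HS b m x ∧ ∀ᶠ k in (𝒰 : Filter α),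
      c ≤ mass (z k * x)
        (ind fun g => (∀ a, a ∈ big gap cl R g) ∧ τ k / 4 ^ m ≤ gap j₀ g) := by
  have hT : TZ mass gap cl b z 𝒰 j₀ τ 0 1 := by
    refine ⟨c0, {cl j₀}, hc0, by simp, fun R => ⟨1, HS.one, ?_⟩⟩
    filter_upwards [hstart, hτ.eventually_ge_atTop R] with k hk hR
    rw [mul_one]
    refine hk.trans (h.ind_mono _ fun g hg' => ⟨?_, hg'⟩)
    rw [Finset.singleton_subset_iff]
    exact mem_big.mpr ⟨j₀, rfl, hR.trans hg'⟩
  obtain ⟨c, Θ, hc, hcard, hR⟩ := tz_le h hg hgeo hch hzb hzK hτ hT m le_rfl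
  refine ⟨c, hc, fun R => ?_⟩
  obtain ⟨x, hx1, hx2⟩ := hR R
  refine ⟨x, hx1, ?_⟩
  filter_upwards [hx2] with k hk
  refine hk.trans (h.ind_mono _ fun g hg' => ⟨fun a => hg'.1 ?_, hg'.2⟩)
  have h1 : Θ = Finset.univ := by
    apply Finset.eq_univ_of_card
    have h2 := Finset.card_le_univ Θ
    rw [Fintype.card_fin] at h2 ⊢
    omega
  rw [h1]
  exact Finset.mem_univ a

/-- The elements of a compact set do not make all the classes large. -/
theorem tz_esc (h : SharpData t mass Cpt Ping) (hg : Gaps gap cl) {z : α → 𝔾} (hr : 2 ≤ r)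
    {𝒦' : Set 𝔾} (hK : Cpt 𝒦') (h1K : (1 : 𝔾) ∈ 𝒦')
    (hfew : ∀ ε : ℝ, 0 < ε → ∃ R, ∀ k, mass (z k) (ind fun g => 2 ≤ (big gap cl R g).card) ≤ ε)
    {c : ℝ} (hc : 0 < c) :
    ∃ R, ∀ x ∈ 𝒦', ∀ k, mass (z k * x) (ind fun g => ∀ a, a ∈ big gap cl R g) < c := by
  classical
  obtain ⟨F0, C1, hC1, hF0⟩ := h.unif 𝒦' hK (c / 4) (by positivity)
  obtain ⟨R0, hR0⟩ := hfew (c / (4 * (C1 + 1))) (by positivity)
  choose Cq hCq using hg.quasi
  obtain ⟨CF, hCF⟩ : ∃ CF : ℝ, ∀ a ∈ F0, ∀ b ∈ F0, Cq a b ≤ CF := by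
    refine ⟨∑ a ∈ F0, ∑ b ∈ F0, |Cq a b|, fun a ha b hb => (le_abs_self _).trans ?_⟩
    refine le_trans ?_ (Finset.single_le_sum (f := fun a => ∑ b ∈ F0, |Cq a b|)
      (fun a _ => Finset.sum_nonneg fun b _ => abs_nonneg _) ha)
    exact Finset.single_le_sum (f := fun b => |Cq a b|) (fun b _ => abs_nonneg _) hb
  refine ⟨R0 + CF, fun x hx k => ?_⟩
  have h1 := hF0 1 h1K x hx (z k) (fun g => ∀ a, a ∈ big gap cl (R0 + CF) g)
  rw [one_mul] at h1
  have h2 : mass (z k) (ind fun g => ∃ a ∈ F0, ∃ b ∈ F0,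
      ∀ c, c ∈ big gap cl (R0 + CF) (a * g * b)) ≤
      mass (z k) (ind fun g => 2 ≤ (big gap cl R0 g).card) := by
    refine h.ind_mono _ fun g hg' => ?_
    obtain ⟨a, ha, b', hb', hab⟩ := hg'
    have h3 : big gap cl R0 g = Finset.univ := by
      rw [Finset.eq_univ_iff_forall]
      intro y
      obtain ⟨i, hi1, hi2⟩ := mem_big.mp (hab y)
      refine mem_big.mpr ⟨i, hi1, ?_⟩
      have h4 := (abs_le.mp (hCq a b' i g)).2
      have h5 := hCF a ha b' hb'
      linarith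
    rw [h3, Finset.card_univ, Fintype.card_fin]
    exact hr
  have h3 := h2.trans (hR0 k)
  have h4 := mul_le_mul_of_nonneg_left h3 hC1
  have h5 : C1 * (c / (4 * (C1 + 1))) ≤ c / 4 := by
    rw [mul_div_assoc', div_le_div_iff₀ (by positivity) (by positivity)]
    nlinarith
  linarith

end chain

end Vale.Agent.P092.H473.NC
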