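import Vale.Agent.P092.H473.NC1

/-!
P092 (helper473), Team N, block [N-GAPB] (3a), part 2: the residual chain for a set `A` of classes
(products: the classes off `A` are tight along the chain), and the form with a cut-off `χ`.
-/

set_option linter.all false

open Filter Topology

namespace Vale.Agent.P092.H473.NC

open Vale.Agent.P092.H200 Vale.Agent.P092.H538 Vale.Agent.P092.H553 Vale.Agent.P092.H761
open Vale.Agent.P092.H515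

section chain

variable {Γ 𝔾 J : Type} [Group Γ] [DecidableEq Γ] [Group 𝔾] [Fintype J] [DecidableEq J] {t : ℝ}
  {mass : 𝔾 → (Γ → ℝ) → ℝ} {Cpt : Set 𝔾 → Prop} {Ping : (p : ℕ) → (Fin p → 𝔾) → Prop}
  {r : ℕ} {gap : J → Γ → ℝ} {cl : J → Fin r} {m : ℕ} {b : Fin m → ℕ → 𝔾} {𝒦 : Fin m → Set 𝔾}
  {α : Type}

/-- **The residual chain, for a set of classes.** The classes off `A` are tight along the chain;
the chain has length at least `A.card - 1`. -/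
theorem tz_set (h : SharpData t mass Cpt Ping) (hg : Gaps gap cl)
    (hgeo : ∀ θ : Finset J, θ.Nonempty → (∀ i ∈ θ, ∀ j, cl i = cl j → j ∈ θ) → Geo gap θ)
    (hch : GChain Cpt Ping m b 𝒦) {z : α → 𝔾} {𝒰 : Ultrafilter α}
    (hzb : ∀ k i N, z k * b i N = b i N * z k) (hzK : ∀ k i, ∀ κ ∈ 𝒦 i, z k * κ = κ * z k)
    {A : Finset (Fin r)} (hA : ∀ ε : ℝ, 0 < ε → ∃ R : ℝ, ∀ u, HS b m u →
      ∀ᶠ k in (𝒰 : Filter α), mass (z k * u) (ind fun g => ∃ a, a ∉ A ∧ a ∈ big gap cl R g) ≤ ε)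
    (hrm : A.card ≤ m + 1) {j₀ : J} {τ : α → ℝ} (hτ : Tendsto τ 𝒰 atTop) {c0 : ℝ} (hc0 : 0 < c0)
    (hstart : ∀ᶠ k in (𝒰 : Filter α), c0 ≤ mass (z k) (ind fun g => τ k ≤ gap j₀ g)) :
    ∃ c : ℝ, 0 < c ∧ ∀ R : ℝ, ∃ x, HS b m x ∧ ∀ᶠ k in (𝒰 : Filter α),
      c ≤ mass (z k * x)
        (ind fun g => (∀ a ∈ A, a ∈ big gap cl R g) ∧ τ k / 4 ^ m ≤ gap j₀ g) := by
  have hT : TZ mass gap cl b z 𝒰 j₀ τ 0 1 := by
    refine ⟨c0, {cl j₀}, hc0, by simp, fun R => ⟨1, HS.one, ?_⟩⟩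
    filter_upwards [hstart, hτ.eventually_ge_atTop R] with k hk hR
    rw [mul_one]
    refine hk.trans (h.ind_mono _ fun g hg' => ⟨?_, hg'⟩)
    rw [Finset.singleton_subset_iff]
    exact mem_big.mpr ⟨j₀, rfl, hR.trans hg'⟩
  obtain ⟨c, Θ, hc, hcard, hR⟩ := tz_le h hg hgeo hch hzb hzK hτ hT m le_rfl
  have hΘA : Θ ⊆ A := by
    intro a ha
    by_contra hna
    obtain ⟨R, hRA⟩ := hA (c / 2) (by positivity)
    obtain ⟨x, hx1, hx2⟩ := hR R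
    obtain ⟨k, hk1, hk2⟩ := (hx2.and (hRA x hx1)).exists
    have h1 : mass (z k * x) (ind fun g => Θ ⊆ big gap cl R g ∧ τ k / 4 ^ m ≤ gap j₀ g) ≤
        mass (z k * x) (ind fun g => ∃ a, a ∉ A ∧ a ∈ big gap cl R g) :=
      h.ind_mono _ fun g hg' => ⟨a, hna, hg'.1 ha⟩
    linarith
  have hΘ : Θ = A := Finset.eq_of_subset_of_card_le hΘA (by omega)
  refine ⟨c, hc, fun R => ?_⟩
  obtain ⟨x, hx1, hx2⟩ := hR R
  refine ⟨x, hx1, ?_⟩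
  filter_upwards [hx2] with k hk
  refine hk.trans (h.ind_mono _ fun g hg' => ⟨fun a ha => hg'.1 ?_, hg'.2⟩)
  rw [hΘ]
  exact ha

/-- The residual chain with a cut-off: `χ k = 1` where the gap `j₀` is larger than
`τ k / 4 ^ m`. -/
theorem tz_chi (h : SharpData t mass Cpt Ping) (hg : Gaps gap cl)
    (hgeo : ∀ θ : Finset J, θ.Nonempty → (∀ i ∈ θ, ∀ j, cl i = cl j → j ∈ θ) → Geo gap θ)
    (hch : GChain Cpt Ping m b 𝒦) {z : α → 𝔾} {𝒰 : Ultrafilter α}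
    (hzb : ∀ k i N, z k * b i N = b i N * z k) (hzK : ∀ k i, ∀ κ ∈ 𝒦 i, z k * κ = κ * z k)
    {A : Finset (Fin r)} (hA : ∀ ε : ℝ, 0 < ε → ∃ R : ℝ, ∀ u, HS b m u →
      ∀ᶠ k in (𝒰 : Filter α), mass (z k * u) (ind fun g => ∃ a, a ∉ A ∧ a ∈ big gap cl R g) ≤ ε)
    (hrm : A.card ≤ m + 1) {j₀ : J} {τ : α → ℝ} (hτ : Tendsto τ 𝒰 atTop) {c0 : ℝ} (hc0 : 0 < c0)
    (hstart : ∀ᶠ k in (𝒰 : Filter α), c0 ≤ mass (z k) (ind fun g => τ k ≤ gap j₀ g))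
    {χ : α → Γ → ℝ} (hχ0 : ∀ k g, 0 ≤ χ k g ∧ χ k g ≤ 1)
    (hχ1 : ∀ k g, τ k / 4 ^ m ≤ gap j₀ g → χ k g = 1) :
    ∃ c : ℝ, 0 < c ∧ ∀ R : ℝ, ∃ x, HS b m x ∧ ∀ᶠ k in (𝒰 : Filter α),
      c ≤ mass (z k * x) (fun g => χ k g * ind (fun g => ∀ a ∈ A, a ∈ big gap cl R g) g) := by
  obtain ⟨c, hc, hR⟩ := tz_set h hg hgeo hch hzb hzK hA hrm hτ hc0 hstart
  refine ⟨c, hc, fun R => ?_⟩
  obtain ⟨x, hx1, hx2⟩ := hR R
  refine ⟨x, hx1, ?_⟩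
  filter_upwards [hx2] with k hk
  refine hk.trans (h.mono _ _ _ 1 (fun g => abs_ind_le _ g) (fun g => ?_) fun g => ?_)
  · rw [abs_mul, abs_of_nonneg (hχ0 k g).1]
    exact mul_le_one₀ (hχ0 k g).2 (abs_nonneg _) (abs_ind_le _ g)
  · by_cases hP : (∀ a ∈ A, a ∈ big gap cl R g) ∧ τ k / 4 ^ m ≤ gap j₀ g
    · rw [ind_pos (P := fun g => (∀ a ∈ A, a ∈ big gap cl R g) ∧ τ k / 4 ^ m ≤ gap j₀ g) hP,
        ind_pos (P := fun g => ∀ a ∈ A, a ∈ big gap cl R g) hP.1, hχ1 k g hP.2, one_mul]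
    · rw [ind_neg (P := fun g => (∀ a ∈ A, a ∈ big gap cl R g) ∧ τ k / 4 ^ m ≤ gap j₀ g) hP]
      exact mul_nonneg (hχ0 k g).1 (ind_nonneg _ g)

/-- The elements of a compact set do not make all the classes of `A` large. -/
theorem tz_esc_set (h : SharpData t mass Cpt Ping) (hg : Gaps gap cl) {z : α → 𝔾}
    {A : Finset (Fin r)} (hr : 2 ≤ A.card)
    {𝒦' : Set 𝔾} (hK : Cpt 𝒦') (h1K : (1 : 𝔾) ∈ 𝒦')
    (hfew : ∀ ε : ℝ, 0 < ε → ∃ R, ∀ k, mass (z k) (ind fun g => 2 ≤ (big gap cl R g).card) ≤ ε)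
    {c : ℝ} (hc : 0 < c) :
    ∃ R, ∀ x ∈ 𝒦', ∀ k, mass (z k * x) (ind fun g => ∀ a ∈ A, a ∈ big gap cl R g) < c := by
  classical
  obtain ⟨F0, C1, hC1, hF0⟩ := h.unif 𝒦' hK (c / 4) (by positivity)
  obtain ⟨R0, hR0⟩ := hfew (c / (4 * (C1 + 1))) (by positivity)
  choose Cq hCq using hg.quasi
  obtain ⟨CF, hCF⟩ : ∃ CF : ℝ, ∀ a ∈ F0, ∀ b ∈ F0, Cq a b ≤ CF := by
    refine ⟨∑ a ∈ F0, ∑ b ∈ F0, |Cq a b|, fun a ha b hb => (le_abs_self _).trans ?_⟩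
    refine le_trans ?_ (Finset.single_le_sum (f := fun a => ∑ b ∈ F0, |Cq a b|)
      (fun a _ => Finset.sum_nonneg fun b _ => abs_nonneg _) ha)
    exact Finset.single_le_sum (f := fun b => |Cq a b|) (fun b _ => abs_nonneg _) hb
  refine ⟨R0 + CF, fun x hx k => ?_⟩
  have h1 := hF0 1 h1K x hx (z k) (fun g => ∀ a ∈ A, a ∈ big gap cl (R0 + CF) g)
  rw [one_mul] at h1
  have h2 : mass (z k) (ind fun g => ∃ a ∈ F0, ∃ b ∈ F0,
      ∀ c ∈ A, c ∈ big gap cl (R0 + CF) (a * g * b)) ≤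
      mass (z k) (ind fun g => 2 ≤ (big gap cl R0 g).card) := by
    refine h.ind_mono _ fun g hg' => ?_
    obtain ⟨a, ha, b', hb', hab⟩ := hg'
    refine hr.trans (Finset.card_le_card fun y hy => ?_)
    obtain ⟨i, hi1, hi2⟩ := mem_big.mp (hab y hy)
    refine mem_big.mpr ⟨i, hi1, ?_⟩
    have h4 := (abs_le.mp (hCq a b' i g)).2
    have h5 := hCF a ha b' hb'
    linarith
  have h3 := h2.trans (hR0 k)
  have h4 := mul_le_mul_of_nonneg_left h3 hC1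
  have h5 : C1 * (c / (4 * (C1 + 1))) ≤ c / 4 := by
    rw [mul_div_assoc', div_le_div_iff₀ (by positivity) (by positivity)]
    nlinarith
  linarith

end chain

end Vale.Agent.P092.H473.NC
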