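import Vale.Agent.P092.H828.CKer
import Vale.Agent.P092.H307.HexC
import Vale.Agent.P092.H473.RQ
import Vale.Agent.P092.H473.Grp2
import Vale.Agent.P092.PA.Fac

/-!
P092 (helper473), TEAM C: the concrete form of theorem RES: in the letters of `RC/Blocks` the data
`H375.RB` exist on the residue algebra (the second alternative is excluded by helper828's `c_ker`).
-/

set_option linter.all false

open scoped LinearAlgebra.Projectivization
open Filter Topology ContinuousLinearMap TopologicalSpace Matrix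

namespace Vale.Agent.P092.H473.RK

open Vale.Agent.P092.RC Vale.Agent.P092.H820
open Vale.Agent.P092.H200.Sheet (Dat Sh Lev tr al be)
open Vale.Agent.P092.H175.T1 (Sys Chain MinP)
open Vale.Agent.P092.H473.Res (GrpH)
open Vale.Agent.P092.H473.RQ

theorem baire_of {G₀ : Type} [Group G₀] [TopologicalSpace G₀] [IsTopologicalGroup G₀] {p n : ℕ}
    {Kn : ℕ → Subgroup G₀} (hK : GrpH p n Kn) : BaireSpace G₀ := by
  haveI : LocallyCompactSpace G₀ :=
    (hK.cpt 0).locallyCompactSpace_of_mem_nhds_of_group ((hK.opn 0).mem_nhds (one_mem _))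
  infer_instance

section con

variable (k : Type) [NontriviallyNormedField k] [ProperSpace k] (m : ℕ)

theorem sigma_GG : SigmaCompactSpace (GG k m) := by
  haveI : LocallyCompactSpace (GG k m) := PA.lc_SL
  haveI : SecondCountableTopology (GG k m) := PA.sc_SL
  infer_instance

end con

/-- the radical of the stabiliser of the base point is a Moore set -/
theorem moore_rad (k : Type) [NontriviallyNormedField k] {m : ℕ} (hm : 1 ≤ m) :
    Moore {r : GG k m | r • (y0 : YY k m) = y0 ∧ cc r (y0 : YY k m) = 1} := by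
  obtain ⟨j, hj⟩ : ∃ j : Fin (m + 1), j ≠ 0 :=
    ⟨⟨1, by omega⟩, by intro h; simpa using congrArg Fin.val h⟩
  have hroot : Moore (Set.range fun s : k =>
      (SpecialLinearGroup.transvection hj.symm s : GG k m)) := by
    intro F _ _ _ σ a1 a2 ξ hξ
    refine H103.mooreSet_root (k := k) (n := Fin (m + 1)) (i := 0) (j := j) hj.symm F σ
      ⟨a1, fun ξ => ?_⟩ ξ hξ
    have h5 := (a2 ξ).tendsto 1
    rwa [map_one] at h5
  refine H828.CKer.moore_mono hroot ?_
  rintro _ ⟨s, rfl⟩
  have hval : ∀ a b : Fin (m + 1), (SpecialLinearGroup.transvection hj.symm s : GG k m).1 a b =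
      (1 : Matrix (Fin (m + 1)) (Fin (m + 1)) k) a b + single 0 j s a b := fun a b => rfl
  have hP : (SpecialLinearGroup.transvection hj.symm s : GG k m) ∈
      H828.Par.Par (k := k) (0 : Fin (m + 1)) := by
    rw [H828.Par.mem_Par]
    intro i hi
    rw [hval, one_apply_ne hi, single_apply_of_ne, add_zero]
    rintro ⟨h1, -⟩
    exact hi h1.symm
  refine ⟨(H828.CKer.smul_y0_iff _).2 hP, H828.CKer.cc_eq_one hP (c := 1) ?_⟩
  ext a b
  rw [H828.Par.blk_apply, hval, one_smul, single_apply_of_ne, add_zero]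
  · by_cases hab : a = b
    · subst hab
      rw [one_apply_eq, one_apply_eq]
    · rw [one_apply_ne hab, one_apply_ne fun h => hab (Subtype.ext h)]
  · rintro ⟨h1, -⟩
    exact a.2 h1.symm

section final

variable {k : Type} [NontriviallyNormedField k] [ProperSpace k] [IsUltrametricDist k] {m : ℕ}
  {Γ K : Type} [Group Γ] [NormedAddCommGroup K] [InnerProductSpace ℂ K] [CompleteSpace K]
  {π : GG k m →* (K →L[ℂ] K)} {lam : Γ →* (K →L[ℂ] K)} {W W' : Set (K →L[ℂ] K)} {Ω : K}
  {q : Γ →* GG k m} {E : Clopens (YY k m) → (K →L[ℂ] K)} {U : Subgroup (PG k m)}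
  {a : PG k m → (K →L[ℂ] K)}
  [MulAction Γ (YY k m)] [ContinuousConstSMul Γ (YY k m)]

theorem hex_of {p n : ℕ} {Kn : ℕ → Subgroup (PG k m)} (hK : GrpH p n Kn)
    (hact : ∀ (γ : Γ) (y : YY k m), γ • y = q γ • y) (hG : Geo (cc : GG k m → YY k m → PG k m) y0)
    (hP : Pic π lam W Ω) (hL : Lim π lam W q y0 E) (hX : Ext π lam W W' (y0 : YY k m) E)
    (hA : Hat π lam W' Ω q cc y0 E U a)
    (hR : Moore {r : GG k m | r • (y0 : YY k m) = y0 ∧ cc r (y0 : YY k m) = 1}) :
    ∃ n e, MinP al ((dat hact hG hP hL hX hR).P Kn (Wn hG Kn)) Kn n e := by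
  haveI := hG.tg₀
  haveI := hG.cpt
  haveI := baire_of hK
  haveI := sigma_GG k m
  exact H307.hex_cos (dat hact hG hP hL hX hR) (lev_of hK) hA.cos
    (hat_mem_P hact hG hP hL hX hR hK hA) hA.res.rinv hA.pos hA.ne hA.sum

/-- **The residue algebra is a torsor algebra**: the data `RB` exist (concrete groups). -/
theorem exists_rb (hm : 2 ≤ m) (hGeo : GeoStmt) (hq : Emb q)
    (hact : ∀ (γ : Γ) (y : YY k m), γ • y = q γ • y)
    (hP : Pic π lam W Ω) (hL : Lim π lam W q y0 E) (hX : Ext π lam W W' (y0 : YY k m) E)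
    (hA : Hat π lam W' Ω q cc y0 E U a) {p n : ℕ} {Kn : ℕ → Subgroup (PG k m)}
    (hK : GrpH p n Kn) :
    ∃ a₁ n₁ m₀ f x, H375.RB al
      (be (πs π y0) (dat hact (hGeo k m (by omega)) hP hL hX (moore_rad k (by omega))).pi_star)
      ((dat hact (hGeo k m (by omega)) hP hL hX (moore_rad k (by omega))).P Kn
        (Wn (hGeo k m (by omega)) Kn)) Kn (Wn (hGeo k m (by omega)) Kn) p n a₁ n₁ m₀ f x := by
  have hG : Geo (cc : GG k m → YY k m → PG k m) y0 := hGeo k m (by omega)
  have hR := moore_rad k (m := m) (by omega)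
  haveI := hG.tg₀
  haveI := baire_of hK
  haveI := sigma_GG k m
  rcases dichC' hact hG hP hL hX hR hK (hex_of hK hact hG hP hL hX hA hR) with
    h1 | ⟨r, hr, hr1, h2⟩
  · exact h1
  · exact (H828.CKer.c_ker hGeo hm hq hP hL hX hA hr hr1 h2).elim

end final

end Vale.Agent.P092.H473.RK
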