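import Vale.Agent.P092.H175.TOneD

/-!
P092 (helper473), team C, theorem RES, part 1: a uniform group `U_0` acts on a star algebra, `f` is
optimal (lemma T1''), a second group `H` acts and commutes.  The coherent sequence of atoms, the
power lemmas (B1), (B2), and the action on the corners.
-/

set_option linter.all false

namespace Vale.Agent.P092.H473.Res

open Vale.Agent.P092.H175.T1

variable {𝔸 G H : Type} [Ring 𝔸] [StarRing 𝔸] [Algebra ℂ 𝔸] [StarModule ℂ 𝔸] [Group G] [Group H]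

/-- Two commuting actions on the star algebra `P`. -/
structure RS (α : G →* (𝔸 →⋆ₐ[ℂ] 𝔸)) (β : H →* (𝔸 →⋆ₐ[ℂ] 𝔸))
    (P : NonUnitalStarSubalgebra ℂ 𝔸) (U : ℕ → Subgroup G) (p : ℕ) : Prop where
  sys : Sys α P U p
  actG : ∀ g, ∀ a ∈ P, α g a ∈ P
  actH : ∀ h, ∀ a ∈ P, β h a ∈ P
  comm : ∀ g h a, α g (β h a) = β h (α g a)

/-- The optimal projection `f` (at level `0`) together with a coherent sequence of atoms. -/
structure Base (α : G →* (𝔸 →⋆ₐ[ℂ] 𝔸)) (β : H →* (𝔸 →⋆ₐ[ℂ] 𝔸))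
    (P : NonUnitalStarSubalgebra ℂ 𝔸) (U : ℕ → Subgroup G) (p : ℕ) (f : 𝔸) (x : ℕ → 𝔸) : Prop where
  rs : RS α β P U p
  opt : Opt α P U 0 f
  com : ∀ m, ∀ y ∈ Cor α P U m f, ∀ z ∈ Cor α P U m f, y * z = z * y
  zero : x 0 = f
  min : ∀ n, MinP α P U n (x n)
  succ : ∀ n, x n * x (n + 1) = x (n + 1)

variable {α : G →* (𝔸 →⋆ₐ[ℂ] 𝔸)} {β : H →* (𝔸 →⋆ₐ[ℂ] 𝔸)} {P : NonUnitalStarSubalgebra ℂ 𝔸}
variable {U : ℕ → Subgroup G} {p : ℕ} {f : 𝔸} {x : ℕ → 𝔸} {n m l j : ℕ} {e e' h h' y z : 𝔸}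

/-- existence of a coherent sequence -/
theorem exists_coh (hs : Sys α P U p) (hf : MinP α P U 0 f) :
    ∃ x : ℕ → 𝔸, x 0 = f ∧ (∀ n, MinP α P U n (x n)) ∧ ∀ n, x n * x (n + 1) = x (n + 1) := by
  classical
  have h1 : ∀ n (e : {e // MinP α P U n e}), ∃ h : {e // MinP α P U (n + 1) e},
      (e : 𝔸) * h = h := by
    rintro n ⟨e, he⟩
    obtain ⟨h, hh, heh⟩ := hs.minex n e he (n + 1) (Nat.le_succ n)
    exact ⟨⟨h, hh⟩, heh⟩
  choose F hF using h1
  let X : ∀ n, {e // MinP α P U n e} := fun n =>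
    Nat.rec (motive := fun n => {e // MinP α P U n e}) ⟨f, hf⟩ (fun n e => F n e) n
  refine ⟨fun n => (X n).1, rfl, ?_, ?_⟩
  · intro n
    exact (X n).2
  · intro n
    exact hF n (X n)

theorem atom_eq (he : MinP α P U n e) (he' : MinP α P U n e') (hc : e * e' = e' * e)
    (h0 : e * e' ≠ 0) : e = e' := by
  have hidem : (e * e') * (e * e') = e * e' := by
    calc (e * e') * (e * e') = e * (e' * e) * e' := by simp only [mul_assoc]
      _ = e * (e * e') * e' := by rw [hc]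
      _ = (e * e) * (e' * e') := by simp only [mul_assoc]
      _ = e * e' := by rw [he.idem, he'.idem]
  have h1 : ∃ c : ℂ, e * e' = c • e := he.scal _ ⟨Qn_mul he.mem he'.mem, by
    rw [← mul_assoc, he.idem], by rw [hc, mul_assoc, he.idem]⟩
  have h2 : ∃ c : ℂ, e * e' = c • e' := he'.scal _ ⟨Qn_mul he.mem he'.mem, by
    rw [hc, ← mul_assoc, he'.idem], by rw [mul_assoc, he'.idem]⟩
  have key : ∀ (q : 𝔸) (c : ℂ), q * q = q → e * e' = c • q → e * e' = q := by
    intro q c hq hcq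
    have h3 := hidem
    rw [hcq, smul_mul_smul_comm, hq] at h3
    have hc0 : c ≠ 0 := by
      rintro rfl
      rw [zero_smul] at hcq
      exact h0 hcq
    have hq0 : q ≠ 0 := by
      rintro rfl
      rw [smul_zero] at hcq
      exact h0 hcq
    have h4 : c * c = c := smul_left_injective ℂ hq0 h3
    have h5 : c = 1 := by
      have h6 : c * (c - 1) = 0 := by rw [mul_sub, h4, mul_one, sub_self]
      exact sub_eq_zero.1 ((mul_eq_zero.1 h6).resolve_left hc0)
    rw [hcq, h5, one_smul]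
  obtain ⟨c, hc1⟩ := h1
  obtain ⟨d, hd1⟩ := h2
  rw [← key e c he.idem hc1, key e' d he'.idem hd1]

theorem star_le {e h : 𝔸} (he : star e = e) (hh : star h = h) (h1 : e * h = h) : h * e = h := by
  have h2 := congrArg star h1
  rwa [star_mul, he, hh] at h2

theorem minP_act (hs : Sys α P U p) {g : G} (hg : g ∈ U 0) (he : MinP α P U n e) :
    MinP α P U n (α g e) := by
  refine ⟨act_Qn hs hg he.mem, by rw [← map_star, he.sa], by rw [← map_mul, he.idem], fun h0 =>
    he.ne (alpha_inj h0), fun a ha => ?_⟩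
  have hg' : g⁻¹ ∈ U 0 := inv_mem hg
  have h1 : α g⁻¹ a ∈ Cor α P U n e := by
    refine ⟨act_Qn hs hg' ha.1, ?_, ?_⟩
    · have h2 := congrArg (α g⁻¹) ha.2.1
      rwa [map_mul, alpha_inv] at h2
    · have h2 := congrArg (α g⁻¹) ha.2.2
      rwa [map_mul, alpha_inv] at h2
  obtain ⟨c, hc⟩ := he.scal _ h1
  refine ⟨c, ?_⟩
  have h3 := congrArg (α g) hc
  rw [map_smul, ← alpha_mul, mul_inv_cancel, map_one] at h3
  exact h3

theorem beta_Qn (hr : RS α β P U p) (w : H) {a : 𝔸} (ha : a ∈ Qn α P U n) :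
    β w a ∈ Qn α P U n := by
  refine ⟨hr.actH w a ha.1, fun k hk => ?_⟩
  rw [hr.comm, ha.2 k hk]

theorem minP_beta (hr : RS α β P U p) (w : H) (he : MinP α P U n e) :
    MinP α P U n (β w e) := by
  refine ⟨beta_Qn hr w he.mem, by rw [← map_star, he.sa], by rw [← map_mul, he.idem], fun h0 =>
    he.ne (alpha_inj (α := β) h0), fun a ha => ?_⟩
  have h1 : β w⁻¹ a ∈ Cor α P U n e := by
    refine ⟨beta_Qn hr _ ha.1, ?_, ?_⟩
    · have h2 := congrArg (β w⁻¹) ha.2.1
      rwa [map_mul, alpha_inv] at h2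
    · have h2 := congrArg (β w⁻¹) ha.2.2
      rwa [map_mul, alpha_inv] at h2
  obtain ⟨c, hc⟩ := he.scal _ h1
  refine ⟨c, ?_⟩
  have h3 := congrArg (β w) hc
  rw [map_smul, ← alpha_mul, mul_inv_cancel, map_one] at h3
  exact h3

/-- `U_0` and `U_m` commute on `A_{m+1}` and `A_{m+2}`. -/
theorem swap (hs : Sys α P U p) {M : ℕ} (hM : M ≤ m + 2) {k v : G} (hk : k ∈ U 0) (hv : v ∈ U m)
    {a : 𝔸} (ha : a ∈ Qn α P U M) : α k (α v a) = α v (α k a) := by
  have h1 := hs.chain.comm m k hk v hv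
  have h2 : v * k = k * v * (v⁻¹ * (k⁻¹ * v * k)) := by group
  rw [← alpha_mul v, h2, alpha_mul, alpha_mul, ha.2 _ (hs.chain.mono hM h1)]

namespace Base

variable (hb : Base α β P U p f x)

include hb

theorem sys : Sys α P U p := hb.rs.sys

theorem le_of_le (h : n ≤ m) : x n * x m = x m := by
  induction m, h using Nat.le_induction with
  | base => exact (hb.min n).idem
  | succ m _ ih =>
    rw [← hb.succ m, ← mul_assoc, ih]

theorem f_le (n : ℕ) : f * x n = x n := by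
  have h1 := hb.le_of_le (Nat.zero_le n)
  rwa [hb.zero] at h1

theorem min_f : MinP α P U 0 f := hb.opt.1

theorem alpha_f {k : G} (hk : k ∈ U 0) : α k f = f := hb.min_f.mem.2 k hk

theorem mem_cor_f (hh : MinP α P U m h) (hf : f * h = h) : h ∈ Cor α P U m f :=
  ⟨hh.mem, hf, star_le hb.min_f.sa hh.sa hf⟩

/-- atoms below `f` with a common nonzero element are equal -/
theorem eq_of_common (hh : MinP α P U m h) (hh' : MinP α P U m h') (hf : f * h = h)
    (hf' : f * h' = h') (hy : y ≠ 0) (h1 : h * y = y) (h2 : h' * y = y) : h = h' := by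
  refine atom_eq hh hh' (hb.com m _ (hb.mem_cor_f hh hf) _ (hb.mem_cor_f hh' hf')) fun h0 => hy ?_
  have h3 : h * h' * y = y := by rw [mul_assoc, h2, h1]
  rw [← h3, h0, zero_mul]

/-- `U_m` is transitive on the atoms of `A_l` below `x_m`. -/
theorem trans (hml : m ≤ l) (hh : MinP α P U l h) (hh' : MinP α P U l h') (h1 : x m * h = h)
    (h2 : x m * h' = h') : ∃ u ∈ U m, α u h = h' := by
  have hs := hb.sys
  have hc1 : h ∈ Cor α P U l (x m) := ⟨hh.mem, h1, star_le (hb.min m).sa hh.sa h1⟩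
  have hc2 : h' ∈ Cor α P U l (x m) := ⟨hh'.mem, h2, star_le (hb.min m).sa hh'.sa h2⟩
  obtain ⟨g, hg, h3⟩ := sup hs (hb.min m) hml hc1 hc2 hh.ne hh'.ne
  have hc3 := act_Cor hs (hb.min m).mem hg hc1
  have hf1 : f * α g h = α g h := by rw [← hc3.2.1, ← mul_assoc, hb.f_le]
  have hf2 : f * h' = h' := by rw [← h2, ← mul_assoc, hb.f_le]
  have hm := minP_act hs (hs.chain.mono (Nat.zero_le m) hg) hh
  exact ⟨g, hg, atom_eq hm hh' (hb.com l _ (hb.mem_cor_f hm hf1) _ (hb.mem_cor_f hh' hf2)) h3⟩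

/-- elements of the corner of `x_m` in `A_l` are combinations of the translates of `x_l`; so an
endomorphism fixing these is trivial on the corner. -/
theorem fix_cor (hml : m ≤ l) (σ : 𝔸 →⋆ₐ[ℂ] 𝔸) (h1 : ∀ u ∈ U m, σ (α u (x l)) = α u (x l)) :
    ∀ z ∈ Cor α P U l (x m), σ z = z := by
  classical
  intro z hz
  have hs := hb.sys
  have hsub : Cor α P U l (x m) ≤ Cor α P U l f :=
    Cor_le hb.min_f.sa (hb.min m).sa (hb.f_le m)
  obtain ⟨s, hs1, hs2, hs3⟩ := hs.dec m (x m) l (hb.min m) hml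
  have hxh : ∀ h ∈ s, x m * h = h := by
    intro h hh
    rw [← hs3, Finset.sum_mul, Finset.sum_eq_single_of_mem h hh fun b hb hbh => hs2 b hb h hh hbh]
    exact (hs1 h hh).idem
  have hz1 : z = ∑ h ∈ s, z * h := by rw [← Finset.mul_sum, hs3, hz.2.2]
  have h2 : ∀ h ∈ s, σ (z * h) = z * h := by
    intro h hh
    have hhc : h ∈ Cor α P U l (x m) :=
      ⟨(hs1 h hh).mem, hxh h hh, star_le (hb.min m).sa (hs1 h hh).sa (hxh h hh)⟩
    have hcom : z * h = h * z := hb.com l z (hsub hz) h (hsub hhc)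
    have h3 : z * h ∈ Cor α P U l h :=
      ⟨Qn_mul hz.1 (hs1 h hh).mem, by rw [hcom, ← mul_assoc, (hs1 h hh).idem], by
        rw [mul_assoc, (hs1 h hh).idem]⟩
    obtain ⟨c, hc⟩ := (hs1 h hh).scal _ h3
    obtain ⟨u, hu, hu'⟩ := hb.trans hml (hb.min l) (hs1 h hh) (hb.le_of_le hml) (hxh h hh)
    rw [hc, map_smul, ← hu', h1 u hu]
  rw [hz1, map_sum]
  exact Finset.sum_congr rfl h2

/-- (C1) -/
theorem down {k k' : G} {w w' : H} (hk : k ∈ U 0) (hk' : k' ∈ U 0) (hw : β w f = f)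
    (hw' : β w' f = f) (hml : m ≤ l) (h1 : α k (β w (x l)) = α k' (β w' (x l))) :
    α k (β w (x m)) = α k' (β w' (x m)) := by
  have hs := hb.sys
  have key : ∀ {k : G} {w : H}, k ∈ U 0 → β w f = f → MinP α P U m (α k (β w (x m))) ∧
      f * α k (β w (x m)) = α k (β w (x m)) ∧
      α k (β w (x m)) * α k (β w (x l)) = α k (β w (x l)) := by
    intro k w hk hw
    refine ⟨minP_act hs hk (minP_beta hb.rs w (hb.min m)), ?_, ?_⟩
    · have h2 := congrArg (fun a => α k (β w a)) (hb.f_le m)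
      simp only [map_mul] at h2
      rwa [hw, hb.alpha_f hk] at h2
    · rw [← map_mul, ← map_mul, hb.le_of_le hml]
  obtain ⟨a1, a2, a3⟩ := key hk hw
  obtain ⟨b1, b2, b3⟩ := key hk' hw'
  refine hb.eq_of_common a1 b1 a2 b2 (y := α k (β w (x l))) ?_ a3 ?_
  · intro h0
    exact (hb.min l).ne (alpha_inj (α := β) (alpha_inj h0))
  · rw [h1]
    exact b3

/-- (C2) -/
theorem exists_tr {k : G} {w : H} (hk : k ∈ U 0) (hml : m ≤ l)
    (h1 : α k (β w (x m)) = x m) : ∃ u ∈ U m, α k (β w (x l)) = α u (x l) := by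
  have h2 : MinP α P U l (α k (β w (x l))) :=
    minP_act hb.sys hk (minP_beta hb.rs w (hb.min _))
  have h3 : x m * α k (β w (x l)) = α k (β w (x l)) := by
    conv_lhs => rw [← h1]
    rw [← map_mul, ← map_mul, hb.le_of_le hml]
  obtain ⟨u, hu, hu'⟩ := hb.trans hml (hb.min _) h2 (hb.le_of_le hml) h3
  exact ⟨u, hu, hu'.symm⟩

/-- (C3) = (B1) -/
theorem pow_fix {k : G} {w : H} (hk : k ∈ U 0) (h1 : α k (β w (x m)) = x m) :
    α (k ^ p) (β (w ^ p) (x (m + 1))) = x (m + 1) := by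
  have hs := hb.sys
  obtain ⟨u, hu, hu'⟩ := hb.exists_tr hk (Nat.le_succ m) h1
  have h2 : ∀ j : ℕ, α (k ^ j) (β (w ^ j) (x (m + 1))) = α (u ^ j) (x (m + 1)) := by
    intro j
    induction j with
    | zero => rw [pow_zero, pow_zero, pow_zero, map_one, map_one]; rfl
    | succ j ih =>
      have h3 : α (k ^ (j + 1)) (β (w ^ (j + 1)) (x (m + 1))) =
          α k (β w (α (k ^ j) (β (w ^ j) (x (m + 1))))) := by
        rw [pow_succ', pow_succ', alpha_mul, alpha_mul (α := β), hb.rs.comm (k ^ j)]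
      have hsw : α k (α (u ^ j) (β w (x (m + 1)))) = α (u ^ j) (α k (β w (x (m + 1)))) :=
        swap hs (by omega : m + 1 ≤ m + 2) hk ((U m).pow_mem hu j) (beta_Qn hb.rs w (hb.min _).mem)
      rw [h3, ih, ← hb.rs.comm, hsw, hu', ← alpha_mul, ← pow_succ]
  rw [h2 p]
  exact (hb.min (m + 1)).mem.2 _ (hs.chain.pow m u hu)

theorem opt_x (n : ℕ) : Opt α P U n (x n) :=
  hb.opt.le hb.sys (Nat.zero_le n) (hb.min n) (hb.f_le n)

/-- (C4) -/
theorem inj {k : G} (hk : k ∈ U j) (h1 : α (k ^ p) (x (j + 2)) = x (j + 2)) :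
    α k (x (j + 1)) = x (j + 1) := by
  have hs := hb.sys
  have hkp : k ^ p ∈ U (j + 1) := hs.chain.pow j k hk
  -- `k ^ p` is trivial on the corner of `x_{j+1}` in `A_{j+2}`
  have h2 : ∀ z ∈ Cor α P U (j + 2) (x (j + 1)), α (k ^ p) z = z := by
    refine hb.fix_cor (Nat.le_succ _) (α (k ^ p)) fun u hu => ?_
    rw [comm_of hs (by omega : j + 2 ≤ (j + 1) + 2) hkp hu (hb.min _).mem, h1]
  have h3 : ∀ ψ ∈ Sg α P U (x (j + 1)) (j + 1), ψ (k ^ p) = 1 := by
    rintro ψ ⟨_, z, hz, hz0, hψ⟩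
    have h4 := hψ _ hkp
    rw [h2 z hz] at h4
    have h5 : (1 : ℂ) • z = ψ (k ^ p) • z := by rw [one_smul]; exact h4
    exact (smul_left_injective ℂ hz0 h5).symm
  have h4 : ∀ χ ∈ Sg α P U (x j) j, χ k = 1 := by
    intro χ hχ
    obtain ⟨ψ, hψ, hpw⟩ := (hb.opt_x j).onto hs hχ
    rw [← (hb.opt_x j).eq hs (Nat.le_succ j) (hb.min (j + 1)) (hb.succ j)] at hψ
    have h5 := congrFun hpw k
    simp only [pw] at h5
    rw [rs_of_mem hk] at h5
    rw [← h5]
    exact h3 ψ hψ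
  -- so `k` is trivial on the corner of `x_j` in `A_{j+1}`
  have hx : x (j + 1) ∈ Cor α P U (j + 1) (x j) :=
    ⟨(hb.min _).mem, hb.succ j, star_le (hb.min j).sa (hb.min _).sa (hb.succ j)⟩
  have hsp := wt_span hs (Nat.le_succ j) (by omega : j + 1 ≤ j + 2) (Cor α P U (j + 1) (x j))
    (fun y hy => hy.1) (fun k hk y hy => act_Cor hs (hb.min j).mem hk hy) _ hx
  refine Submodule.span_induction (p := fun a _ => α k a = a) ?_ ?_ ?_ ?_ hsp
  · rintro z ⟨hz, χ, hχ⟩
    by_cases hz0 : z = 0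
    · rw [hz0, map_zero]
    · have h5 := h4 _ (rs_mem_Sg hz hz0 hχ)
      rw [rs_of_mem hk] at h5
      rw [hχ k hk, h5, one_smul]
  · exact map_zero _
  · intro a b _ _ ha hb'
    rw [map_add, ha, hb']
  · intro c a _ ha
    rw [map_smul, ha]

theorem one_beta (w : H) (a : 𝔸) : α 1 (β w a) = β w a := by rw [map_one]; rfl

/-- `β w` fixes `x_m` if it fixes `x_l`, `m ≤ l`. -/
theorem beta_down {w : H} (hw : β w f = f) (hml : m ≤ l) (h1 : β w (x l) = x l) :
    β w (x m) = x m := by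
  have h2 := hb.down (k := 1) (k' := 1) (w := w) (w' := 1) (m := m) (l := l) (one_mem _)
    (one_mem _) hw (by rw [map_one]; rfl) hml (by
      rw [hb.one_beta, hb.one_beta, h1, map_one]; rfl)
  rw [hb.one_beta, hb.one_beta] at h2
  rw [h2, map_one]; rfl

/-- (B1) -/
theorem beta_pow {w : H} (h1 : β w (x m) = x m) : β (w ^ p) (x (m + 1)) = x (m + 1) := by
  have h2 := hb.pow_fix (k := 1) (w := w) (one_mem _) (by rw [hb.one_beta, h1])
  rwa [one_pow, hb.one_beta] at h2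

/-- (C5) = (B2) -/
theorem beta_root {w : H} (hw : β w f = f) (h1 : β (w ^ p) (x (m + 1)) = x (m + 1)) :
    β w (x m) = x m := by
  have hs := hb.sys
  have hwp : β (w ^ p) f = f := by
    have h2 : ∀ j : ℕ, β (w ^ j) f = f := by
      intro j
      induction j with
      | zero => rw [pow_zero, map_one]; rfl
      | succ j ih => rw [pow_succ, alpha_mul, hw, ih]
    exact h2 p
  have key : ∀ j, j ≤ m → β w (x j) = x j := by
    intro j
    induction j with
    | zero => intro _; rw [hb.zero, hw]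
    | succ j ih =>
      intro hj
      have h2 : α 1 (β w (x j)) = x j := by rw [hb.one_beta]; exact ih (by omega)
      obtain ⟨k, hk, hk'⟩ := hb.exists_tr (k := 1) (one_mem _) (Nat.le_succ j) h2
      rw [hb.one_beta] at hk'
      have hk0 : k ∈ U 0 := hs.chain.mono (Nat.zero_le j) hk
      have h3 : α k⁻¹ (β w (x (j + 1))) = x (j + 1) := by rw [hk', alpha_inv]
      have h4 := hb.pow_fix (k := k⁻¹) (w := w) (inv_mem hk0) h3
      have h5 : β (w ^ p) (x (j + 1 + 1)) = x (j + 1 + 1) := hb.beta_down hwp (by omega) h1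
      rw [h5] at h4
      have h6 : α (k ^ p) (x (j + 2)) = x (j + 2) := by
        have h7 := congrArg (α (k ^ p)) h4
        rw [← alpha_mul, inv_pow, mul_inv_cancel, map_one] at h7
        exact h7.symm
      rw [hk']
      exact hb.inj hk h6
  exact key m le_rfl

/-- an element of `H` fixing `f` and `x_m` is trivial on the corner of `f` in `A_m`. -/
theorem beta_trivial {w : H} (h1 : β w (x m) = x m) : ∀ z ∈ Cor α P U m f, β w z = z := by
  have h2 := hb.fix_cor (Nat.zero_le m) (β w) fun u hu => by rw [← hb.rs.comm, h1]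
  rwa [hb.zero] at h2

end Base

end Vale.Agent.P092.H473.Res
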