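import Vale.Agent.P092.H473.Res1

/-!
P092 (helper473), team C, theorem RES, part 2: exact roots in a compact uniform group, the
propagation (iv), and case (b): a nontrivial subgroup acting trivially on the corner of `f` has
commutators acting trivially everywhere.
-/

set_option linter.all false

namespace Vale.Agent.P092.H473.Res

open Vale.Agent.P092.H175.T1

/-! ### exact roots -/

section roots

variable {H : Type} [Group H] {p : ℕ} {W : ℕ → Subgroup H}

theorem mul_pow_mem (hc : Chain p W) {M q : ℕ} (hq : M ≤ q + 2) {a b : H} (ha : a ∈ W 0)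
    (hb : b ∈ W q) (j : ℕ) : ∃ n ∈ W M, (a * b) ^ j = a ^ j * b ^ j * n := by
  induction j with
  | zero => exact ⟨1, one_mem _, by simp⟩
  | succ j ih =>
    obtain ⟨n, hn, h1⟩ := ih
    have h2 : (b ^ j)⁻¹ * (a⁻¹ * b ^ j * a) ∈ W M :=
      hc.mono hq (hc.comm q a ha (b ^ j) ((W q).pow_mem hb j))
    have h3 : a⁻¹ * n * a ∈ W M := hc.conj_mem ha hn
    have hb0 : b ∈ W 0 := hc.mono (Nat.zero_le q) hb
    refine ⟨b⁻¹ * ((b ^ j)⁻¹ * (a⁻¹ * b ^ j * a) * (a⁻¹ * n * a)) * b,
      hc.conj_mem hb0 ((W M).mul_mem h2 h3), ?_⟩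
    rw [pow_succ, h1, pow_succ a, pow_succ b]
    group

variable [TopologicalSpace H] [IsTopologicalGroup H]

/-- In a compact uniform group the elements of `W_{m+1}` are `p`-th powers of elements of `W_m`. -/
theorem exact_root (hc : Chain p W) (hcomp : IsCompact (W 0 : Set H))
    (hop : ∀ n, IsOpen (W n : Set H)) (hsep : ∀ y, (∀ n, y ∈ W n) → y = 1) (m : ℕ) (l : H)
    (hl : l ∈ W (m + 1)) : ∃ k ∈ W m, k ^ p = l := by
  have hcl : ∀ n, IsClosed (W n : Set H) := fun n => Subgroup.isClosed_of_isOpen _ (hop n)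
  have hcm : IsCompact (W m : Set H) :=
    hcomp.of_isClosed_subset (hcl m) (hc.mono (Nat.zero_le m))
  let E : ℕ → Set H := fun i => (W m : Set H) ∩ (fun y => (y ^ p)⁻¹ * l) ⁻¹' (W (m + 2 + i) : Set H)
  have hE0 : ∀ i, (E i).Nonempty := by
    intro i
    induction i with
    | zero =>
      obtain ⟨k, hk, r, hr, h1⟩ := hc.root m l hl
      refine ⟨k, hk, ?_⟩
      change (k ^ p)⁻¹ * l ∈ W (m + 2)
      rw [h1, inv_mul_cancel_left]
      exact hr
    | succ i ih =>
      obtain ⟨y, hy, hy'⟩ := ih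
      have hy'' : (y ^ p)⁻¹ * l ∈ W ((m + 1 + i) + 1) := by
        have h0 : m + 2 + i = (m + 1 + i) + 1 := by omega
        rw [← h0]
        exact hy'
      obtain ⟨t, ht, r, hr, h1⟩ := hc.root (m + 1 + i) _ hy''
      have hy0 : y ∈ W 0 := hc.mono (Nat.zero_le m) hy
      obtain ⟨n, hn, h2⟩ := mul_pow_mem hc (le_refl (m + 1 + i + 2)) hy0 ht p
      refine ⟨y * t, mul_mem hy (hc.mono (by omega) ht), ?_⟩
      change ((y * t) ^ p)⁻¹ * l ∈ W (m + 2 + (i + 1))
      have h3 : ((y * t) ^ p)⁻¹ * l = n⁻¹ * r := by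
        have h4 : l = y ^ p * (t ^ p * r) := by rw [← h1, mul_inv_cancel_left]
        rw [h2, h4]
        group
      have h0 : m + 2 + (i + 1) = m + 1 + i + 2 := by omega
      rw [h3, h0]
      exact mul_mem (inv_mem hn) hr
  have hE1 : ∀ i, E (i + 1) ⊆ E i := by
    rintro i y ⟨h1, h2⟩
    exact ⟨h1, hc.mono (by omega) h2⟩
  have hcont : Continuous fun y : H => (y ^ p)⁻¹ * l :=
    ((continuous_pow p).inv).mul continuous_const
  have hE2 : ∀ i, IsClosed (E i) := fun i => (hcl m).inter ((hcl _).preimage hcont)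
  have hE3 : IsCompact (E 0) := hcm.of_isClosed_subset (hE2 0) Set.inter_subset_left
  obtain ⟨y, hy⟩ := IsCompact.nonempty_iInter_of_sequence_nonempty_isCompact_isClosed E hE1 hE0
    hE3 hE2
  rw [Set.mem_iInter] at hy
  refine ⟨y, (hy 0).1, ?_⟩
  have h1 : (y ^ p)⁻¹ * l = 1 := by
    refine hsep _ fun n => ?_
    exact hc.mono (by omega) (hy n).2
  exact inv_mul_eq_one.1 h1

end roots

variable {𝔸 G H : Type} [Ring 𝔸] [StarRing 𝔸] [Algebra ℂ 𝔸] [StarModule ℂ 𝔸] [Group G] [Group H]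
variable {α : G →* (𝔸 →⋆ₐ[ℂ] 𝔸)} {β : H →* (𝔸 →⋆ₐ[ℂ] 𝔸)} {P : NonUnitalStarSubalgebra ℂ 𝔸}
variable {U : ℕ → Subgroup G} {W : ℕ → Subgroup H} {p : ℕ} {f : 𝔸} {x : ℕ → 𝔸}
variable {n m l j : ℕ} {e e' h h' y z : 𝔸}

namespace Base

variable (hb : Base α β P U p f x)

include hb

/-- (C6) `W_j` fixes `x_j`. -/
theorem beta_fix (hWf : ∀ w ∈ W 0, β w f = f) (hroot : ∀ m, ∀ w ∈ W (m + 1), ∃ y ∈ W m, y ^ p = w)
    (j : ℕ) : ∀ w ∈ W j, β w (x j) = x j := by
  induction j with
  | zero =>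
    intro w hw
    rw [hb.zero, hWf w hw]
  | succ j ih =>
    intro w hw
    obtain ⟨v, hv, rfl⟩ := hroot j w hw
    exact hb.beta_pow (ih v hv)

/-- (iv): case (a) propagates. -/
theorem propagate (hc : Chain p W) (hWf : ∀ w ∈ W 0, β w f = f)
    (hroot : ∀ m, ∀ w ∈ W (m + 1), ∃ y ∈ W m, y ^ p = w) {m0 : ℕ}
    (h0 : ∀ w ∈ W 0, β w (x m0) = x m0 → w ∈ W 1) (i : ℕ) :
    ∀ w ∈ W 0, β w (x (m0 + i)) = x (m0 + i) → w ∈ W (1 + i) := by
  have hmono : ∀ n, W n ≤ W 0 := fun n => hc.mono (Nat.zero_le n)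
  induction i with
  | zero => exact h0
  | succ i ih =>
    intro w hw h1
    have h2 := ih w hw (hb.beta_down (hWf w hw) (by omega) h1)
    have h2' : w ∈ W (i + 1) := by rw [add_comm i 1]; exact h2
    obtain ⟨v, hv, hvw⟩ := hroot i w h2'
    have hv0 := hmono i hv
    have h3 : β v (x (m0 + i)) = x (m0 + i) := by
      refine hb.beta_root (hWf v hv0) ?_
      rw [hvw]
      exact h1
    have h4 := hc.pow _ _ (ih v hv0 h3)
    rw [hvw] at h4
    exact h4

/-! ### case (b) -/

/-- (i) elements of `P` under `f` lie in the corners -/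
theorem mem_cor (hsm : ∀ a ∈ P, ∃ n, ∀ u ∈ U n, α u a = a) {a : 𝔸} (ha : a ∈ P)
    (h1 : f * a = a) (h2 : a * f = a) : ∃ n, ∀ m, n ≤ m → a ∈ Cor α P U m f := by
  obtain ⟨n, hn⟩ := hsm a ha
  exact ⟨n, fun m hm => ⟨⟨ha, fun k hk => hn k (hb.sys.chain.mono hm hk)⟩, h1, h2⟩⟩

theorem fcomm (hsm : ∀ a ∈ P, ∃ n, ∀ u ∈ U n, α u a = a) {a b : 𝔸} (ha : a ∈ P) (hb' : b ∈ P)
    (h1 : f * a = a) (h2 : a * f = a) (h3 : f * b = b) (h4 : b * f = b) : a * b = b * a := by
  obtain ⟨n, hn⟩ := hb.mem_cor hsm ha h1 h2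
  obtain ⟨m, hm⟩ := hb.mem_cor hsm hb' h3 h4
  exact hb.com (max n m) a (hn _ (le_max_left _ _)) b (hm _ (le_max_right _ _))

theorem ffix (hsm : ∀ a ∈ P, ∃ n, ∀ u ∈ U n, α u a = a) {s : H} (hs : ∀ m, β s (x m) = x m)
    {a : 𝔸} (ha : a ∈ P) (h1 : f * a = a) (h2 : a * f = a) : β s a = a := by
  obtain ⟨n, hn⟩ := hb.mem_cor hsm ha h1 h2
  exact hb.beta_trivial (hs n) a (hn n le_rfl)

theorem eq_zero_of {a : 𝔸} (h0 : star a * a = 0) : a = 0 := by
  by_contra h1
  exact star_mul_self_ne hb.sys h1 h0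

/-- commutators of elements acting trivially on the corner of `f` are trivial on `f P (α g f)`. -/
theorem comm_tr (hsm : ∀ a ∈ P, ∃ n, ∀ u ∈ U n, α u a = a) {s t : H}
    (hs : ∀ m, β s (x m) = x m) (ht : ∀ m, β t (x m) = x m) (g : G) {y : 𝔸} (hy : y ∈ P) :
    β (s * t) (f * y * α g f) = β (t * s) (f * y * α g f) := by
  have hfP : f ∈ P := hb.min_f.mem.1
  have hff : f * f = f := hb.min_f.idem
  have hfs : star f = f := hb.min_f.sa
  set F := α g f with hF
  have hFP : F ∈ P := hb.rs.actG g f hfP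
  have hFF : F * F = F := by rw [hF, ← map_mul, hff]
  have hFs : star F = F := by rw [hF, ← map_star, hfs]
  set z := f * y * F with hz
  have hzP : z ∈ P := mul_mem (mul_mem hfP hy) hFP
  have hfz : f * z = z := by rw [hz, ← mul_assoc, ← mul_assoc, hff]
  have hzF : z * F = z := by rw [hz, mul_assoc, hFF]
  clear_value z
  have hzf' : star z * f = star z := by
    have h1 := congrArg star hfz
    rwa [star_mul, hfs] at h1
  have hFz' : F * star z = star z := by
    have h1 := congrArg star hzF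
    rwa [star_mul, hFs] at h1
  have hβf : ∀ r : H, (∀ m, β r (x m) = x m) → β r f = f := by
    intro r hr
    have h1 := hr 0
    rwa [hb.zero] at h1
  have hβF : ∀ r : H, (∀ m, β r (x m) = x m) → β r F = F := by
    intro r hr
    rw [hF, ← hb.rs.comm, hβf r hr]
  -- elements under `F` are fixed
  have hFfix : ∀ r : H, (∀ m, β r (x m) = x m) → ∀ a ∈ P, F * a = a → a * F = a → β r a = a := by
    intro r hr a ha h1 h2
    have h3 : β r (α g⁻¹ a) = α g⁻¹ a := by
      refine hb.ffix hsm hr (hb.rs.actG _ _ ha) ?_ ?_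
      · have h4 := congrArg (α g⁻¹) h1
        rwa [map_mul, hF, alpha_inv] at h4
      · have h4 := congrArg (α g⁻¹) h2
        rwa [map_mul, hF, alpha_inv] at h4
    have h5 := congrArg (α g) h3
    rw [hb.rs.comm, ← alpha_mul (α := α), mul_inv_cancel, map_one] at h5
    exact h5
  have hst : ∀ m, β (s * t) (x m) = x m := fun m => by rw [alpha_mul, ht, hs]
  have hts : ∀ m, β (t * s) (x m) = x m := fun m => by rw [alpha_mul, hs, ht]
  have hβz : ∀ r : H, (∀ m, β r (x m) = x m) → β r z ∈ P ∧ f * β r z = β r z ∧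
      β r z * F = β r z := by
    intro r hr
    refine ⟨hb.rs.actH r z hzP, ?_, ?_⟩
    · conv_lhs => rw [← hβf r hr]
      rw [← map_mul, hfz]
    · conv_lhs => rw [← hβF r hr]
      rw [← map_mul, hzF]
  -- `u_r = β r z * star z` lies under `f`
  have hu : ∀ r : H, (∀ m, β r (x m) = x m) → β r z * star z ∈ P ∧
      f * (β r z * star z) = β r z * star z ∧ β r z * star z * f = β r z * star z := by
    intro r hr
    obtain ⟨h1, h2, h3⟩ := hβz r hr
    exact ⟨mul_mem h1 (star_mem hzP), by rw [← mul_assoc, h2], by rw [mul_assoc, hzf']⟩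
  have hzz : z * star z ∈ P ∧ f * (z * star z) = z * star z ∧ z * star z * f = z * star z :=
    ⟨mul_mem hzP (star_mem hzP), by rw [← mul_assoc, hfz], by rw [mul_assoc, hzf']⟩
  have hprod : ∀ r q : H, (∀ m, β r (x m) = x m) → (∀ m, β q (x m) = x m) →
      (β r z * star z) * (β q z * star z) = (z * star z) * (β (r * q) z * star z) := by
    intro r q hr hq
    obtain ⟨h1, h2, h3⟩ := hβz q hq
    have h4 : β r (star z * β q z) = star z * β q z := by
      refine hFfix r hr _ (mul_mem (star_mem hzP) h1) ?_ ?_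
      · rw [← mul_assoc, hFz']
      · rw [mul_assoc, h3]
    have h5 : β r (z * star z) = z * star z := hb.ffix hsm hr hzz.1 hzz.2.1 hzz.2.2
    calc (β r z * star z) * (β q z * star z) = β r z * (star z * β q z) * star z := by
          simp only [mul_assoc]
      _ = β r z * (β r (star z * β q z)) * star z := by rw [h4]
      _ = β r (z * star z) * (β (r * q) z * star z) := by
          rw [map_mul (β r) (star z), map_mul (β r) z, alpha_mul]
          simp only [mul_assoc]
      _ = (z * star z) * (β (r * q) z * star z) := by rw [h5]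
  set d := β (s * t) z - β (t * s) z with hd
  have hcomu : (β s z * star z) * (β t z * star z) = (β t z * star z) * (β s z * star z) :=
    hb.fcomm hsm (hu s hs).1 (hu t ht).1 (hu s hs).2.1 (hu s hs).2.2 (hu t ht).2.1 (hu t ht).2.2
  rw [hprod s t hs ht, hprod t s ht hs] at hcomu
  have h1 : (z * star z) * (d * star z) = 0 := by
    rw [hd, sub_mul, mul_sub, hcomu, sub_self]
  have hdP : d ∈ P := sub_mem (hβz _ hst).1 (hβz _ hts).1
  have hdf : f * (d * star z) = d * star z := by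
    rw [hd, sub_mul, mul_sub, (hu _ hst).2.1, (hu _ hts).2.1]
  have hdf' : d * star z * f = d * star z := by rw [mul_assoc, hzf']
  have h2 : (d * star z) * (z * star z) = 0 := by
    rw [← hb.fcomm hsm hzz.1 (mul_mem hdP (star_mem hzP)) hzz.2.1 hzz.2.2 hdf hdf', h1]
  -- `d q q = 0`, `q = star z * z`
  have h3 : (star z * z) * star d = 0 := by
    refine hb.eq_zero_of ?_
    have h4 : star ((star z * z) * star d) * ((star z * z) * star d) =
        (d * star z) * (z * star z) * z * star d := by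
      simp only [star_mul, star_star, mul_assoc]
    rw [h4, h2, zero_mul, zero_mul]
  have hkill : ∀ v : 𝔸, star v * v = star z * z → v * star d = 0 := by
    intro v hv
    refine hb.eq_zero_of ?_
    have h4 : star (v * star d) * (v * star d) = d * ((star v * v) * star d) := by
      simp only [star_mul, star_star, mul_assoc]
    rw [h4, hv, h3, mul_zero]
  have hqP : star z * z ∈ P ∧ F * (star z * z) = star z * z ∧ star z * z * F = star z * z :=
    ⟨mul_mem (star_mem hzP) hzP, by rw [← mul_assoc, hFz'], by rw [mul_assoc, hzF]⟩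
  have h5 : ∀ r : H, (∀ m, β r (x m) = x m) → β r z * star d = 0 := by
    intro r hr
    refine hkill _ ?_
    rw [← map_star, ← map_mul]
    exact hFfix r hr _ hqP.1 hqP.2.1 hqP.2.2
  have h6 : star d = 0 := by
    refine hb.eq_zero_of ?_
    rw [star_star]
    conv_lhs => rw [hd, sub_mul]
    rw [h5 _ hst, h5 _ hts, sub_self]
  have h7 : d = 0 := star_eq_zero.1 h6
  exact sub_eq_zero.1 h7

/-- (B3), algebraic part. -/
theorem comm_all (hsm : ∀ a ∈ P, ∃ n, ∀ u ∈ U n, α u a = a)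
    (hE : ∀ y ∈ P, (∀ g, y * α g f = 0) → y = 0) {s t : H}
    (hs : ∀ m, β s (x m) = x m) (ht : ∀ m, β t (x m) = x m) :
    ∀ y ∈ P, β (s * t) y = β (t * s) y := by
  intro y hy
  have hβf : ∀ r : H, (∀ m, β r (x m) = x m) → β r f = f := by
    intro r hr
    have h1 := hr 0
    rwa [hb.zero] at h1
  have hst : ∀ m, β (s * t) (x m) = x m := fun m => by rw [alpha_mul, ht, hs]
  have hts : ∀ m, β (t * s) (x m) = x m := fun m => by rw [alpha_mul, hs, ht]
  have hfP : f ∈ P := hb.min_f.mem.1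
  set Y := β (s * t) y - β (t * s) y with hY
  have hYP : Y ∈ P := sub_mem (hb.rs.actH _ _ hy) (hb.rs.actH _ _ hy)
  have h1 : ∀ g g' : G, α g f * Y * α g' f = 0 := by
    intro g g'
    have h2 : ∀ r : H, (∀ m, β r (x m) = x m) → α g f * β r y * α g' f =
        α g (β r (f * α g⁻¹ y * α (g⁻¹ * g') f)) := by
      intro r hr
      rw [map_mul, map_mul, map_mul, map_mul, hβf r hr, ← hb.rs.comm (g⁻¹ * g'), hβf r hr,
        ← alpha_mul, ← mul_assoc g, mul_inv_cancel, one_mul, ← hb.rs.comm g⁻¹, ← alpha_mul,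
        mul_inv_cancel, map_one]
      rfl
    rw [hY, mul_sub, sub_mul, h2 _ hst, h2 _ hts, hb.comm_tr hsm hs ht _ (hb.rs.actG _ _ hy),
      sub_self]
  have h2 : ∀ g, α g f * Y = 0 := fun g =>
    hE _ (mul_mem (hb.rs.actG g f hfP) hYP) (h1 g)
  have h3 : star Y = 0 := by
    refine hE _ (star_mem hYP) fun g => ?_
    have h4 := congrArg star (h2 g)
    rwa [star_mul, star_zero, ← map_star, hb.min_f.sa] at h4
  exact sub_eq_zero.1 (star_eq_zero.1 h3)

/-- (B3), the element. -/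
theorem exists_w [TopologicalSpace H] [IsTopologicalGroup H] (hcomp : IsCompact (W 0 : Set H))
    (hop : ∀ n, IsOpen (W n : Set H)) (hWf : ∀ w ∈ W 0, β w f = f)
    (hsmH : ∀ a ∈ P, ∃ n, ∀ w ∈ W n, β w a = a)
    (hcase : ∀ m, ∃ w ∈ W 0, β w (x m) = x m ∧ w ∉ W 1) :
    ∃ w ∈ W 0, w ∉ W 1 ∧ ∀ m, β w (x m) = x m := by
  have hclS : ∀ m, IsClosed {w : H | β w (x m) = x m} := by
    intro m
    let S : Subgroup H :=
      { carrier := {w : H | β w (x m) = x m}
        mul_mem' := fun {a b} ha hb' => by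
          change β (a * b) (x m) = x m
          rw [alpha_mul]
          rw [Set.mem_setOf_eq] at ha hb'
          rw [hb', ha]
        one_mem' := by
          change β 1 (x m) = x m
          rw [map_one]; rfl
        inv_mem' := fun {a} ha => by
          change β a⁻¹ (x m) = x m
          rw [Set.mem_setOf_eq] at ha
          conv_lhs => rw [← ha]
          exact alpha_inv (α := β) a (x m) }
    obtain ⟨n, hn⟩ := hsmH (x m) (hb.min m).mem.1
    exact Subgroup.isClosed_of_isOpen S (Subgroup.isOpen_mono (H₁ := W n) (fun w hw => hn w hw)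
      (hop n))
  have hcl0 : IsClosed (W 0 : Set H) := Subgroup.isClosed_of_isOpen _ (hop 0)
  let E : ℕ → Set H := fun m => ((W 0 : Set H) ∩ (W 1 : Set H)ᶜ) ∩ {w : H | β w (x m) = x m}
  have hE0 : ∀ m, (E m).Nonempty := by
    intro m
    obtain ⟨w, h1, h2, h3⟩ := hcase m
    exact ⟨w, ⟨h1, h3⟩, h2⟩
  have hE1 : ∀ m, E (m + 1) ⊆ E m := by
    rintro m w ⟨h1, h2⟩
    exact ⟨h1, hb.beta_down (hWf w h1.1) (Nat.le_succ m) h2⟩
  have hE2 : ∀ m, IsClosed (E m) := fun m =>
    (hcl0.inter (isClosed_compl_iff.2 (hop 1))).inter (hclS m)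
  have hE3 : IsCompact (E 0) := hcomp.of_isClosed_subset (hE2 0)
    (Set.inter_subset_left.trans Set.inter_subset_left)
  obtain ⟨w, hw⟩ := IsCompact.nonempty_iInter_of_sequence_nonempty_isCompact_isClosed E hE1 hE0
    hE3 hE2
  rw [Set.mem_iInter] at hw
  exact ⟨w, (hw 0).1.1, (hw 0).1.2, fun m => (hw m).2⟩

end Base

end Vale.Agent.P092.H473.Res
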