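import Vale.Agent.P092.H473.Res2
import Vale.Agent.P092.H375.ResB2

/-!
P092 (helper473), team C, theorem RES, part 3: the assembly (`dich`, `res`).
-/

set_option linter.all false

namespace Vale.Agent.P092.H473.Res

open Vale.Agent.P092.H175.T1

/-! ### shifting the levels -/

section shift

variable {𝔸 K : Type} [Ring 𝔸] [StarRing 𝔸] [Algebra ℂ 𝔸] [StarModule ℂ 𝔸] [Group K]
variable {α : K →* (𝔸 →⋆ₐ[ℂ] 𝔸)} {P : NonUnitalStarSubalgebra ℂ 𝔸} {U : ℕ → Subgroup K} {p : ℕ}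

/-- the shifted chain -/
def sh (U : ℕ → Subgroup K) (a : ℕ) : ℕ → Subgroup K := fun k => U (a + k)

theorem chain_sh (h : Chain p U) (a : ℕ) : Chain p (sh U a) where
  pos := h.pos
  le := fun n => h.le (a + n)
  comm := fun m k hk l hl => h.comm (a + m) k (h.mono (Nat.zero_le _) hk) l hl
  pow := fun m k hk => h.pow (a + m) k hk
  root := fun m l hl => h.root (a + m) l hl
  fin := fun m => h.fin (a + m)

theorem sys_sh (h : Sys α P U p) (a : ℕ) : Sys α P (sh U a) p where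
  chain := chain_sh h.chain a
  act := fun k hk => h.act k (h.chain.mono (Nat.zero_le _) hk)
  pos := h.pos

theorem minP_sh {a n : ℕ} {e : 𝔸} (h : MinP α P U (a + n) e) : MinP α P (sh U a) n e :=
  ⟨h.mem, h.sa, h.idem, h.ne, h.scal⟩

theorem minP_unsh {a n : ℕ} {e : 𝔸} (h : MinP α P (sh U a) n e) : MinP α P U (a + n) e :=
  ⟨h.mem, h.sa, h.idem, h.ne, h.scal⟩

theorem opt_sh {a : ℕ} {f : 𝔸} (h : Opt α P U a f) : Opt α P (sh U a) 0 f :=
  ⟨minP_sh (a := a) (n := 0) h.1, fun m e he => h.2 (a + m) e (minP_unsh he)⟩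

end shift

variable {𝔸 G H : Type} [Ring 𝔸] [StarRing 𝔸] [Algebra ℂ 𝔸] [StarModule ℂ 𝔸] [Group G] [Group H]

/-- Hypotheses of theorem RES. -/
structure ResH (α : G →* (𝔸 →⋆ₐ[ℂ] 𝔸)) (β : H →* (𝔸 →⋆ₐ[ℂ] 𝔸))
    (P : NonUnitalStarSubalgebra ℂ 𝔸) (U : ℕ → Subgroup G) (W : ℕ → Subgroup H) (p q : ℕ)
    [TopologicalSpace H] : Prop where
  sys : Sys α P U p
  cm : ∀ g h a, α g (β h a) = β h (α g a)
  actG : ∀ g, ∀ a ∈ P, α g a ∈ P
  actH : ∀ h, ∀ a ∈ P, β h a ∈ P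
  smG : ∀ a ∈ P, ∃ n, ∀ u ∈ U n, α u a = a
  smH : ∀ a ∈ P, ∃ n, ∀ w ∈ W n, β w a = a
  hex : ∃ n e, MinP α P U n e
  /-- (E') -/
  hE : ∀ n f, MinP α P U n f → ∀ y ∈ P, (∀ g, y * α g f = 0) → y = 0
  /-- `U`: sizes, completeness, Hausdorff, conjugation, no centralisers -/
  Uq : ∀ m, (U (m + 1)).relIndex (U m) ≤ q
  cpl : ∀ a, ∀ c : ℕ → G, (∀ N, c N ∈ U a) → (∀ N, a ≤ N → (c N)⁻¹ * c (N + 1) ∈ U N) →
    ∃ u ∈ U a, ∀ N, a ≤ N → (c N)⁻¹ * u ∈ U N
  inter : ∀ g, (∀ m, g ∈ U m) → g = 1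
  conj : ∀ g N, ∃ r, ∀ k ∈ U r, g⁻¹ * k * g ∈ U N
  cent : ∀ r g, (∀ k ∈ U r, k * g = g * k) → g = 1
  /-- `W` -/
  Wch : Chain p W
  Wq : ∀ j, q ≤ (W (j + 1)).relIndex (W j)
  Wcomp : IsCompact (W 0 : Set H)
  Wop : ∀ n, IsOpen (W n : Set H)
  Wsep : ∀ y, (∀ n, y ∈ W n) → y = 1

variable {α : G →* (𝔸 →⋆ₐ[ℂ] 𝔸)} {β : H →* (𝔸 →⋆ₐ[ℂ] 𝔸)} {P : NonUnitalStarSubalgebra ℂ 𝔸}
variable {U : ℕ → Subgroup G} {W : ℕ → Subgroup H} {p q : ℕ}
variable [TopologicalSpace H] [IsTopologicalGroup H]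

/-- **Theorem RES, the dichotomy**: either the data `RB` of helper375 (whence `b5`, `b6`, `tower_ab`:
`P` is commutative and the atoms form torsors), or a nontrivial subgroup `T` of some `W_b`, normal
in `W_b`, whose commutators act trivially on `P`. -/
theorem dich (h : ResH α β P U W p q) :
    (∃ a n m0 f x, H375.RB α β P U W p q a n m0 f x) ∨
    ∃ (b : ℕ) (T : Subgroup H), T ≤ W b ∧ (∃ w ∈ T, w ∉ W (b + 1)) ∧
      (∀ v ∈ W b, ∀ t ∈ T, v * t * v⁻¹ ∈ T) ∧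
      ∀ s ∈ T, ∀ t ∈ T, ∀ y ∈ P, β (s * t) y = β (t * s) y := by
  classical
  obtain ⟨a, f, hopt, hcom⟩ := main' h.sys h.hex
  have hs' := sys_sh h.sys a
  have hopt' := opt_sh hopt
  obtain ⟨x, hx0, hx1, hx2⟩ := exists_coh hs' hopt'.1
  have hb : Base α β P (sh U a) p f x :=
    { rs := ⟨hs', h.actG, h.actH, h.cm⟩
      opt := hopt'
      com := fun m => hcom (a + m)
      zero := hx0
      min := hx1
      succ := hx2 }
  have hfP : f ∈ P := hopt.1.mem.1
  obtain ⟨b, hbf⟩ := h.smH f hfP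
  -- the shifted chain of `H`
  have hWch := chain_sh h.Wch b
  have hWop : ∀ n, IsOpen (sh W b n : Set H) := fun n => h.Wop (b + n)
  have hWcl : IsClosed (W b : Set H) := Subgroup.isClosed_of_isOpen _ (h.Wop b)
  have hWcomp : IsCompact (sh W b 0 : Set H) :=
    h.Wcomp.of_isClosed_subset hWcl (h.Wch.mono (Nat.zero_le b))
  have hWsep : ∀ y, (∀ n, y ∈ sh W b n) → y = 1 := fun y hy =>
    h.Wsep y fun n => h.Wch.mono (by omega : n ≤ b + n) (hy n)
  have hroot := fun m l hl => exact_root hWch hWcomp hWop hWsep m l hl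
  have hWf : ∀ w ∈ sh W b 0, β w f = f := fun w hw => hbf w hw
  by_cases hcase : ∃ m0, ∀ w ∈ sh W b 0, β w (x m0) = x m0 → w ∈ sh W b 1
  · left
    obtain ⟨m0, hm0⟩ := hcase
    have hprop := hb.propagate hWch hWf hroot hm0
    have hlev : ∀ m, a ≤ m → a + (m - a) = m := fun m hm => Nat.add_sub_cancel' hm
    refine ⟨a, b, a + m0, f, fun m => x (m - a),
      { sys := h.sys
        opt := hopt
        cm := h.cm
        aG := h.actG
        aH := fun w _ => h.actH w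
        x_min := fun m hm => by
          have h1 := minP_unsh (hx1 (m - a))
          rwa [hlev m hm] at h1
        x_f := fun m _ => hb.f_le _
        x_x := fun m hm => by
          have h1 : m + 1 - a = (m - a) + 1 := by omega
          rw [h1]
          exact hx2 _
        wf := hbf
        aW := antitone_nat_of_succ_le h.Wch.le
        Uq := fun m _ => h.Uq m
        Wq := fun j _ => h.Wq j
        am0 := Nat.le_add_right a m0
        free := fun i w hw h1 => by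
          have h2 : a + m0 + i - a = m0 + i := by omega
          rw [h2] at h1
          have h3 := hprop i w hw h1
          have h4 : b + 1 + i = b + (1 + i) := by omega
          rw [h4]
          exact h3
        cpl := h.cpl a
        inter := fun g hg => h.inter g fun m => by
          rcases le_total a m with hm | hm
          · exact hg m hm
          · exact h.sys.chain.mono hm (hg a le_rfl)
        conj := h.conj
        cent := h.cent
        smU := h.smG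
        smW := h.smH }⟩
  · right
    push Not at hcase
    have hcase' : ∀ m, ∃ w ∈ sh W b 0, β w (x m) = x m ∧ w ∉ sh W b 1 := by
      intro m
      obtain ⟨w, h1, h2, h3⟩ := hcase m
      exact ⟨w, h1, h2, h3⟩
    have hsm : ∀ a' ∈ P, ∃ n, ∀ w ∈ sh W b n, β w a' = a' := by
      intro a' ha'
      obtain ⟨n, hn⟩ := h.smH a' ha'
      exact ⟨n, fun w hw => hn w (h.Wch.mono (by omega : n ≤ b + n) hw)⟩
    obtain ⟨w0, hw0, hw1, hwx⟩ := hb.exists_w hWcomp hWop hWf hsm hcase'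
    let T : Subgroup H :=
      { carrier := {w : H | w ∈ W b ∧ ∀ m, β w (x m) = x m}
        mul_mem' := fun {r t} hr ht => ⟨mul_mem hr.1 ht.1, fun m => by
          rw [alpha_mul, ht.2 m, hr.2 m]⟩
        one_mem' := ⟨one_mem _, fun m => by rw [map_one]; rfl⟩
        inv_mem' := fun {r} hr => ⟨inv_mem hr.1, fun m => by
          conv_lhs => rw [← hr.2 m]
          exact alpha_inv (α := β) r (x m)⟩ }
    have hmemT : ∀ w, w ∈ T ↔ w ∈ W b ∧ ∀ m, β w (x m) = x m := fun w => Iff.rfl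
    have hsmG : ∀ a' ∈ P, ∃ n, ∀ u ∈ sh U a n, α u a' = a' := by
      intro a' ha'
      obtain ⟨n, hn⟩ := h.smG a' ha'
      exact ⟨n, fun u hu => hn u (h.sys.chain.mono (by omega : n ≤ a + n) hu)⟩
    refine ⟨b, T, fun w hw => ((hmemT w).1 hw).1, ⟨w0, (hmemT w0).2 ⟨hw0, hwx⟩, hw1⟩, ?_, ?_⟩
    · intro v hv t ht
      obtain ⟨ht1, ht2⟩ := (hmemT t).1 ht
      refine (hmemT _).2 ⟨mul_mem (mul_mem hv ht1) (inv_mem hv), fun m => ?_⟩
      -- `v⁻¹ x_m` is in the corner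
      have h1 : β v⁻¹ (x m) ∈ Cor α P (sh U a) m f := by
        have h2 : MinP α P (sh U a) m (β v⁻¹ (x m)) := minP_beta hb.rs v⁻¹ (hx1 m)
        refine hb.mem_cor_f h2 ?_
        have h3 := congrArg (β v⁻¹) (hb.f_le m)
        rwa [map_mul, hbf _ (inv_mem hv)] at h3
      rw [alpha_mul, alpha_mul, hb.beta_trivial (ht2 m) _ h1, ← alpha_mul, mul_inv_cancel, map_one]
      rfl
    · intro s hs t ht y hy
      exact hb.comm_all hsmG (h.hE a f hopt.1) ((hmemT s).1 hs).2 ((hmemT t).1 ht).2 y hy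

/-- **Theorem RES.** -/
theorem res (h : ResH α β P U W p q) :
    (∀ y ∈ P, ∀ z ∈ P, y * z = z * y) ∨
    ∃ (b : ℕ) (T : Subgroup H), T ≤ W b ∧ (∃ w ∈ T, w ∉ W (b + 1)) ∧
      (∀ v ∈ W b, ∀ t ∈ T, v * t * v⁻¹ ∈ T) ∧
      ∀ s ∈ T, ∀ t ∈ T, ∀ y ∈ P, β (s * t) y = β (t * s) y := by
  rcases dich h with ⟨a, n, m0, f, x, hR⟩ | h1
  · exact Or.inl (hR.b6 (h.hE a f hR.opt.1))
  · exact Or.inr h1

end Vale.Agent.P092.H473.Res
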