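import Vale.Agent.P092.H473.Res4

/-!
P092 (helper473), team C: theorem RES with different sizes of the two chains: if the group `G`
(target) is strictly smaller than the group `H` (source), the first alternative is impossible.
-/

set_option linter.all false

namespace Vale.Agent.P092.H473.Res

open Vale.Agent.P092.H175.T1 Vale.Agent.P092.H375

section strict

variable {𝔸 G H : Type} [Ring 𝔸] [StarRing 𝔸] [Algebra ℂ 𝔸] [StarModule ℂ 𝔸] [Group G] [Group H]
  {α : G →* (𝔸 →⋆ₐ[ℂ] 𝔸)} {β : H →* (𝔸 →⋆ₐ[ℂ] 𝔸)} {P : NonUnitalStarSubalgebra ℂ 𝔸}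
  {U : ℕ → Subgroup G} {W : ℕ → Subgroup H} {p q a n m0 : ℕ} {f : 𝔸} {x : ℕ → 𝔸}

/-- the branching number is `q` -/
theorem sg_eq_q (h : RB α β P U W p q a n m0 f x) : (Sg α P U f a).ncard = q := by
  classical
  letI iG : MulAction G 𝔸 :=
    { smul := fun g b => α g b
      one_smul := fun b => by change α 1 b = b; rw [map_one]; rfl
      mul_smul := fun g g' b => alpha_mul g g' b }
  letI iH : MulAction H 𝔸 :=
    { smul := fun g b => β g b
      one_smul := fun b => by change β 1 b = b; rw [map_one]; rfl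
      mul_smul := fun g g' b => alpha_mul g g' b }
  haveI : SMulCommClass G H 𝔸 := ⟨fun g k b => h.cm g k b⟩
  have horb : ∀ m, a ≤ m → MulAction.orbit (U a) (x m) = atoms α P U f m := by
    intro m hm
    ext y
    constructor
    · rintro ⟨⟨u, hu⟩, rfl⟩
      exact atoms_act h.sys h.opt.1 (h.x_mem hm) hu
    · intro hy
      obtain ⟨u, hu, h1⟩ := atoms_trans h.sys h.opt.1 hm (h.cor_comm m) (h.x_mem hm) hy
      exact ⟨⟨u, hu⟩, h1⟩
  have hT : Tower U W x a n m0 (Sg α P U f a).ncard q := by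
    refine ⟨fun i j hij => h.sys.chain.mono hij, h.aW, h.Uq, fun m _ => h.sys.chain.fin m, h.Wq,
      ?_, ?_, fun m hm u hu => (h.x_min m hm).mem.2 u hu, ?_, ?_, ?_, h.am0, h.free⟩
    · exact (Sg_card_le h.sys).trans (h.Uq a le_rfl)
    · have h1 := card_atoms h.sys h.opt (Nat.le_succ a)
      have h2 : (atoms α P U f (a + 1)).ncard ≠ 0 := by
        have h3 : (atoms α P U f (a + 1)).Finite :=
          atoms_finite h.sys h.opt.1 (Nat.le_succ a) (h.cor_comm _)
        exact ((Set.ncard_pos h3).2 ⟨_, h.x_mem (Nat.le_succ a)⟩).ne'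
      rw [h1] at h2
      by_contra h0
      have h3 : (Sg α P U f a).ncard = 0 := by omega
      rw [h3, (by omega : a.succ - a = 1), pow_one] at h2
      exact h2 rfl
    · intro m hm
      rw [horb m hm]
      exact card_atoms h.sys h.opt hm
    · intro m hm w hw
      obtain ⟨u, hu, h1⟩ := atoms_trans h.sys h.opt.1 hm (h.cor_comm m) (h.x_mem hm)
        (h.beta_atoms hw (h.x_mem hm))
      exact ⟨u, hu, h1.symm⟩
    · intro m hm u hu w hw h1
      have h1' : β w (x (m + 1)) = α u (x (m + 1)) := h1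
      change β w (x m) = α u (x m)
      refine h.dom_eq hm (h.beta_atoms hw (h.x_mem hm))
        (atoms_act h.sys h.opt.1 (h.x_mem hm) hu) (t := α u (x (m + 1)))
        (fun h0 => (h.x_min (m + 1) (by omega)).ne (alpha_inj h0)) ?_ ?_
      · rw [← h1', ← map_mul, h.x_x m hm]
      · rw [← map_mul, h.x_x m hm]
  exact hT.s_eq

theorem not_rb (h : RB α β P U W p q a n m0 f x) (hq : (U (a + 1)).relIndex (U a) < q) : False := by
  have h1 := sg_eq_q h
  have h2 := Sg_card_le (e := f) (m := a) h.sys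
  omega

end strict

variable {𝔸 G H H₁ : Type} [Ring 𝔸] [StarRing 𝔸] [Algebra ℂ 𝔸] [StarModule ℂ 𝔸] [Group G]
  [Group H] [Group H₁] {pr : H₁ →* H} {α : G →* (𝔸 →⋆ₐ[ℂ] 𝔸)} {β₁ : H₁ →* (𝔸 →⋆ₐ[ℂ] 𝔸)}
  {P : NonUnitalStarSubalgebra ℂ 𝔸} {U : ℕ → Subgroup G} {W : ℕ → Subgroup H} {p q q₁ q₂ : ℕ}
  [TopologicalSpace G] [TopologicalSpace H] [IsTopologicalGroup H]

/-- The group inputs for the target group (no condition on commutativity of subgroups). -/
structure GrpU {G : Type} [Group G] (p q : ℕ) (K : ℕ → Subgroup G) : Prop where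
  chain : Chain p K
  idx : ∀ m, (K (m + 1)).relIndex (K m) = q
  cpl : ∀ a, ∀ c : ℕ → G, (∀ N, c N ∈ K a) → (∀ N, a ≤ N → (c N)⁻¹ * c (N + 1) ∈ K N) →
    ∃ u ∈ K a, ∀ N, a ≤ N → (c N)⁻¹ * u ∈ K N
  inter : ∀ g, (∀ m, g ∈ K m) → g = 1
  conj : ∀ g N, ∃ r, ∀ k ∈ K r, g⁻¹ * k * g ∈ K N
  cent : ∀ r g, (∀ k ∈ K r, k * g = g * k) → g = 1

/-- **Theorem RES, quotient form, two sizes.** -/
theorem dichQ2 (hpr : Function.Surjective pr) (h : ResQ pr α β₁ P U W p) (hU : GrpU p q₁ U)
    (hW : GrpH p q₂ W) (hq : q₁ ≤ q₂) :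
    (∃ a n m0 f x, H375.RB α β₁ P U (fun j => (W j).comap pr) p q₂ a n m0 f x) ∨
    ∃ r : H₁, pr r ≠ 1 ∧ ∀ y ∈ P, β₁ r y = y := by
  classical
  have hPS : ∀ a ∈ P, a ∈ FixR pr β₁ := fun a ha r hr => h.rad r hr a ha
  have hα : ∀ g, ∀ a ∈ FixR pr β₁, α g a ∈ FixR pr β₁ := fun g a ha r hr => by
    rw [← h.cm, ha r hr]
  set S := FixR pr β₁ with hS
  set α' := rsa S α hα with hα'
  set β' := bq pr hpr β₁ with hβ'
  set P' := rsP S P with hP'
  have hβc : ∀ (w : H₁) (a : S), ((β' (pr w) a : S) : 𝔸) = β₁ w a := fun w a => bq_pr hpr w a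
  have hαc : ∀ (g : G) (a : S), ((α' g a : S) : 𝔸) = α g a := fun g a => rfl
  have hres : ResH α' β' P' U W p q₂ :=
    { sys := sys_of h.sys
      cm := fun g w a => by
        obtain ⟨w, rfl⟩ := hpr w
        refine Subtype.ext ?_
        rw [hαc, hβc, hβc, hαc, h.cm]
      actG := fun g a ha => h.actG g a ha
      actH := fun w a ha => by
        obtain ⟨w, rfl⟩ := hpr w
        rw [hP', mem_rsP, hβc]
        exact h.actH w a ha
      smG := fun a ha => by
        obtain ⟨n, hn⟩ := h.smG a ha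
        exact ⟨n, fun u hu => Subtype.ext (hn u hu)⟩
      smH := fun a ha => by
        obtain ⟨n, hn⟩ := h.smH a ha
        refine ⟨n, fun w hw => ?_⟩
        obtain ⟨w, rfl⟩ := hpr w
        refine Subtype.ext ?_
        rw [hβc]
        exact hn w hw
      hex := by
        obtain ⟨n, e, he⟩ := h.hex
        have heS : e ∈ S := hPS e he.mem.1
        exact ⟨n, ⟨e, heS⟩, (minP_iff hPS).2 he⟩
      hE := fun n f hf y hy h0 => Subtype.ext (h.hE n f ((minP_iff hPS).1 hf) y hy fun g =>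
        congrArg Subtype.val (h0 g))
      Uq := fun m => (hU.idx m).le.trans hq
      cpl := hU.cpl
      inter := hU.inter
      conj := hU.conj
      cent := hU.cent
      Wch := hW.chain
      Wq := fun j => (hW.idx j).ge
      Wcomp := hW.cpt 0
      Wop := hW.opn
      Wsep := hW.inter }
  rcases dich hres with ⟨a, n, m0, f, x, hR⟩ | ⟨b, T, hTb, ⟨w0, hw0, hw1⟩, hTn, hTc⟩
  · left
    refine ⟨a, n, m0, f, fun m => (x m : 𝔸),
      { sys := h.sys
        opt := opt_of hPS hR.opt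
        cm := h.cm
        aG := h.actG
        aH := fun w _ => h.actH w
        x_min := fun m hm => (minP_iff hPS).1 (hR.x_min m hm)
        x_f := fun m hm => congrArg Subtype.val (hR.x_f m hm)
        x_x := fun m hm => congrArg Subtype.val (hR.x_x m hm)
        wf := fun w hw => by
          rw [← hβc, hR.wf _ hw]
        aW := fun i j hij => Subgroup.comap_mono (hR.aW hij)
        Uq := hR.Uq
        Wq := fun j hj => by
          rw [relIndex_comap hpr]
          exact hR.Wq j hj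
        am0 := hR.am0
        free := fun i w hw h1 => hR.free i (pr w) hw (Subtype.ext (by rw [hβc]; exact h1))
        cpl := hR.cpl
        inter := hR.inter
        conj := hR.conj
        cent := hR.cent
        smU := h.smG
        smW := fun y hy => h.smH y hy }⟩
  · right
    obtain ⟨s, hs, t, ht, hst⟩ := hW.noab b T ⟨w0, hw0, fun h1 => hw1 (h1 ▸ one_mem _)⟩ hTn
    obtain ⟨r, hr⟩ := hpr ((t * s)⁻¹ * (s * t))
    refine ⟨r, ?_, fun y hy => ?_⟩
    · rw [hr]
      intro h1
      exact hst (inv_mul_eq_one.1 h1).symm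
    · have hyS : y ∈ S := hPS y hy
      have h1 := hTc s hs t ht ⟨y, hyS⟩ hy
      have h2 : β' (pr r) ⟨y, hyS⟩ = ⟨y, hyS⟩ := by
        rw [hr, alpha_mul, h1, ← alpha_mul, inv_mul_cancel, map_one]
        rfl
      have h3 := congrArg Subtype.val h2
      rw [hβc] at h3
      exact h3

/-- **The middle types are excluded**: if the target is strictly smaller than the source, some
element outside the radical acts trivially. -/
theorem resQ_strict (hpr : Function.Surjective pr) (h : ResQ pr α β₁ P U W p) (hU : GrpU p q₁ U)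
    (hW : GrpH p q₂ W) (hq : q₁ < q₂) : ∃ r : H₁, pr r ≠ 1 ∧ ∀ y ∈ P, β₁ r y = y := by
  rcases dichQ2 hpr h hU hW hq.le with ⟨a, n, m0, f, x, hR⟩ | h1
  · exact (not_rb hR (by rw [hU.idx]; exact hq)).elim
  · exact h1

end Vale.Agent.P092.H473.Res
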